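import Vale.Agent.P146.H758.Box
import Vale.Agent.P146.H379.RowF

/-!
# P146: the law of one share (helper393), bookkeeping

`2 N + 5` levels: `1`: exponent `y u`, bonds `1 - S u²` | `2`: `a u`, bonds `(S - T) u²`, field
`wa u³` | `3, …, N + 2`: first bundle | `N + 3`: bonds `e u²` | `N + 4, …, 2 N + 3`: second bundle |
`2 N + 4`: `v u`, bonds `(T - e - T1) u²`, field `w u³` | `2 N + 5`: `z u`, bonds `T1 u²`.
The exponents of the levels `3, …, 2 N + 4` increase from `v u (1 - q)` to `v u` in equal steps.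
-/

open MeasureTheory ProbabilityTheory

namespace Vale.Agent.P146.H393.In

open Vale.Agent.P157 Vale.Agent.P157.Lv Vale.Agent.P157.Lv.Sy
open Vale.Agent.P146.H93 (Cd skS Em)
open Vale.Agent.P146.H186 (amp amp_mem)
open Vale.Agent.P146.H758 (tv Ex2)

/-! ### sums of one peak -/

/-- one peak -/
def pk (i : ℕ) (c : ℝ) (l : ℕ) : ℝ := if l = i then c else 0

lemma sum_pk {i L : ℕ} (c : ℝ) (hi : 1 ≤ i) :
    ∑ j ∈ Finset.range L, pk i c (j + 1) = if i ≤ L then c else 0 := by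
  unfold pk
  have e : ∀ j, (j + 1 = i) = (j = i - 1) := fun j => by
    rw [eq_iff_iff]; omega
  simp only [e]
  rw [Finset.sum_ite_eq']
  simp only [Finset.mem_range]
  by_cases h : i ≤ L
  · rw [if_pos h, if_pos (by omega)]
  · rw [if_neg h, if_neg (by omega)]

/-! ### the exponents -/

/-- the exponents -/
noncomputable def mI (N : ℕ) (u y a v z q : ℝ) (l : ℕ) : ℝ :=
  if l = 0 then 0 else if l = 1 then y * u else if l = 2 then a * u
  else if l ≤ 2 * N + 4 then v * u * (1 - q * ((2 * N + 4 - l) / (2 * N + 2)))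
  else if l = 2 * N + 5 then z * u else 1

/-- the step of the exponents -/
noncomputable def st (N : ℕ) (u v q : ℝ) : ℝ := v * u * q / (2 * N + 2)

variable {n N l : ℕ} {β u y a v z q S T T1 e wa w : ℝ}

lemma mI_zero : mI N u y a v z q 0 = 0 := rfl

lemma mI_one : mI N u y a v z q 1 = y * u := rfl

lemma mI_two : mI N u y a v z q 2 = a * u := rfl

lemma mI_mid (h3 : 3 ≤ l) (hl : l ≤ 2 * N + 4) :
    mI N u y a v z q l = v * u * (1 - q * ((2 * N + 4 - l) / (2 * N + 2))) := by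
  unfold mI
  rw [if_neg (by omega), if_neg (by omega), if_neg (by omega), if_pos hl]

lemma mI_v : mI N u y a v z q (2 * N + 4) = v * u := by
  rw [mI_mid (by omega) le_rfl]
  push_cast
  ring

lemma mI_z : mI N u y a v z q (2 * N + 5) = z * u := by
  unfold mI
  rw [if_neg (by omega), if_neg (by omega), if_neg (by omega), if_neg (by omega), if_pos rfl]

lemma mI_top : mI N u y a v z q (2 * N + 5 + 1) = 1 := by
  unfold mI
  rw [if_neg (by omega), if_neg (by omega), if_neg (by omega), if_neg (by omega),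
    if_neg (by omega)]

lemma mI_step (h3 : 3 ≤ l) (hl : l + 1 ≤ 2 * N + 4) :
    mI N u y a v z q (l + 1) - mI N u y a v z q l = st N u v q := by
  rw [mI_mid h3 (by omega), mI_mid (by omega) hl]
  unfold st
  push_cast
  field_simp
  ring

/-- the numbers of the exponents are admissible -/
structure Adm (N : ℕ) (u y a v z q : ℝ) : Prop where
  N3 : 3 ≤ N
  u0 : 0 < u
  y0 : 0 < y
  ya : y ≤ a
  av : a ≤ v * (1 - q)
  vz : v ≤ z
  zu : z * u ≤ 1
  q0 : 0 < q
  q1 : q ≤ 1 / 2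

variable (H : Adm N u y a v z q)

namespace Adm

include H

lemma v0 : 0 < v := by
  have h1 : 0 < v * (1 - q) := H.y0.trans_le (H.ya.trans H.av)
  have h2 : 0 < 1 - q := by linarith [H.q1]
  exact (pos_iff_pos_of_mul_pos h1).2 h2

lemma st0 : 0 < st N u v q := by
  have h1 := H.v0
  have h2 := H.u0
  have h3 := H.q0
  unfold st
  positivity

omit H in
lemma fr (h3 : 3 ≤ l) (hl : l ≤ 2 * N + 4) :
    0 ≤ ((2 * N + 4 - l : ℝ) / (2 * N + 2)) ∧ ((2 * N + 4 - l : ℝ) / (2 * N + 2)) ≤ 1 := by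
  have h1 : (3 : ℝ) ≤ l := by exact_mod_cast h3
  have h2 : (l : ℝ) ≤ 2 * N + 4 := by exact_mod_cast hl
  have h4 : (0 : ℝ) < 2 * N + 2 := by positivity
  refine ⟨div_nonneg (by linarith) h4.le, ?_⟩
  rw [div_le_one h4]
  linarith

/-- the exponents of the bundles are in `[v u (1 - q), v u]` -/
lemma mid (h3 : 3 ≤ l) (hl : l ≤ 2 * N + 4) :
    v * u * (1 - q) ≤ mI N u y a v z q l ∧ mI N u y a v z q l ≤ v * u := by
  obtain ⟨f0, f1⟩ := fr h3 hl
  have hv := H.v0
  have hu := H.u0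
  have hq := H.q0
  rw [mI_mid h3 hl]
  constructor
  · refine mul_le_mul_of_nonneg_left ?_ (by positivity)
    have := mul_le_mul_of_nonneg_left f1 hq.le
    linarith
  · have h1 : 0 ≤ v * u := by positivity
    have h2 : v * u * (1 - q * ((2 * N + 4 - l) / (2 * N + 2))) ≤ v * u * 1 :=
      mul_le_mul_of_nonneg_left (by
        have := mul_nonneg hq.le f0
        linarith) h1
    linarith

lemma em : Em (2 * N + 5) (mI N u y a v z q) where
  m0 := mI_zero
  mK := mI_top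
  pos := by
    rw [mI_one]
    exact mul_pos H.y0 H.u0
  mono := fun l hl => by
    have hu := H.u0
    have hv := H.v0
    rcases Nat.lt_or_ge l 3 with h | h
    · interval_cases l
      · rw [mI_zero, mI_one]
        exact (mul_pos H.y0 H.u0).le
      · rw [mI_one, mI_two]
        exact mul_le_mul_of_nonneg_right H.ya hu.le
      · rw [mI_two]
        refine le_trans ?_ (H.mid (l := 3) le_rfl (by omega)).1
        have := mul_le_mul_of_nonneg_right H.av hu.le
        linarith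
    · rcases Nat.lt_or_ge l (2 * N + 4) with h1 | h1
      · have h2 := mI_step (N := N) (u := u) (y := y) (a := a) (v := v) (z := z) (q := q) h h1
        have h3 := H.st0
        linarith
      · rcases Nat.lt_or_ge l (2 * N + 5) with h2 | h2
        · have e : l = 2 * N + 4 := by omega
          subst e
          rw [mI_v, show 2 * N + 4 + 1 = 2 * N + 5 by omega, mI_z]
          exact mul_le_mul_of_nonneg_right H.vz hu.le
        · have e : l = 2 * N + 5 := by omega
          subst e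
          rw [mI_z, mI_top]
          exact H.zu

lemma ex2 : Ex2 (2 * N + 5) (mI N u y a v z q) (y * u) (z * u) where
  em := H.em
  K1 := by omega
  y0 := mul_pos H.y0 H.u0
  Y1 := H.zu
  ge := by rw [mI_one]
  le := by rw [mI_z]

/-- every exponent is at most `z u` -/
lemma le_z (hl : l ≤ 2 * N + 5) : mI N u y a v z q l ≤ z * u := H.ex2.Yj hl

lemma ge_y (h1 : 1 ≤ l) (hl : l ≤ 2 * N + 5) : y * u ≤ mI N u y a v z q l := H.ex2.yj h1 hl

end Adm

/-! ### the bonds -/

/-- the amplitudes of the bonds -/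
noncomputable def bI (n N : ℕ) (β u S T T1 e : ℝ) (l : ℕ) : ℝ :=
  if l = 1 then β / √n * √(1 - S * u ^ 2) else if l = 2 then β / √n * √((S - T) * u ^ 2)
  else if l = N + 3 then β / √n * √(e * u ^ 2)
  else if l = 2 * N + 4 then β / √n * √((T - e - T1) * u ^ 2)
  else if l = 2 * N + 5 then β / √n * √(T1 * u ^ 2) else 0

/-- the shares are admissible -/
structure Shr (u S T T1 e : ℝ) : Prop where
  Su : S * u ^ 2 ≤ 1
  TS : T ≤ S
  eT : e + T1 ≤ T
  e0 : 0 ≤ e
  T10 : 0 ≤ T1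

lemma bI_sq (hn : 0 < n) (h : Shr u S T T1 e) (l : ℕ) :
    bI n N β u S T T1 e l ^ 2 = pk 1 (β ^ 2 / n * (1 - S * u ^ 2)) l +
      pk 2 (β ^ 2 / n * ((S - T) * u ^ 2)) l + pk (N + 3) (β ^ 2 / n * (e * u ^ 2)) l +
      pk (2 * N + 4) (β ^ 2 / n * ((T - e - T1) * u ^ 2)) l +
      pk (2 * N + 5) (β ^ 2 / n * (T1 * u ^ 2)) l := by
  have hn' : (0 : ℝ) < n := by exact_mod_cast hn
  have key : ∀ x : ℝ, 0 ≤ x → (β / √n * √x) ^ 2 = β ^ 2 / n * x := by
    intro x hx
    rw [mul_pow, div_pow, Real.sq_sqrt hn'.le, Real.sq_sqrt hx]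
  have u2 : 0 ≤ u ^ 2 := sq_nonneg u
  have h1 := h.Su
  have h2 := h.TS
  have h3 := h.eT
  have h4 := h.e0
  have h5 := h.T10
  have k1 := key (1 - S * u ^ 2) (by linarith)
  have k2 := key ((S - T) * u ^ 2) (mul_nonneg (by linarith) u2)
  have k3 := key (e * u ^ 2) (mul_nonneg h4 u2)
  have k4 := key ((T - e - T1) * u ^ 2) (mul_nonneg (by linarith) u2)
  have k5 := key (T1 * u ^ 2) (mul_nonneg h5 u2)
  unfold bI pk
  by_cases c1 : l = 1
  · subst c1
    rw [if_pos rfl, if_pos rfl, if_neg (by omega), if_neg (by omega), if_neg (by omega),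
      if_neg (by omega), k1]
    ring
  by_cases c2 : l = 2
  · subst c2
    rw [if_neg (by omega), if_pos rfl, if_neg (by omega), if_pos rfl, if_neg (by omega),
      if_neg (by omega), if_neg (by omega), k2]
    ring
  by_cases c3 : l = N + 3
  · rw [if_neg c1, if_neg c2, if_pos c3, if_neg c1, if_neg c2, if_pos c3, if_neg (by omega),
      if_neg (by omega), k3]
    ring
  by_cases c4 : l = 2 * N + 4
  · rw [if_neg c1, if_neg c2, if_neg c3, if_pos c4, if_neg c1, if_neg c2, if_neg c3, if_pos c4,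
      if_neg (by omega), k4]
    ring
  by_cases c5 : l = 2 * N + 5
  · rw [if_neg c1, if_neg c2, if_neg c3, if_neg c4, if_pos c5, if_neg c1, if_neg c2, if_neg c3,
      if_neg c4, if_pos c5, k5]
    ring
  · rw [if_neg c1, if_neg c2, if_neg c3, if_neg c4, if_neg c5, if_neg c1, if_neg c2, if_neg c3,
      if_neg c4, if_neg c5]
    ring

lemma sum_bI (hn : 0 < n) (h : Shr u S T T1 e) (l : ℕ) :
    ∑ j ∈ Finset.range l, bI n N β u S T T1 e (j + 1) ^ 2 =
      (if 1 ≤ l then β ^ 2 / n * (1 - S * u ^ 2) else 0) +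
      (if 2 ≤ l then β ^ 2 / n * ((S - T) * u ^ 2) else 0) +
      (if N + 3 ≤ l then β ^ 2 / n * (e * u ^ 2) else 0) +
      (if 2 * N + 4 ≤ l then β ^ 2 / n * ((T - e - T1) * u ^ 2) else 0) +
      (if 2 * N + 5 ≤ l then β ^ 2 / n * (T1 * u ^ 2) else 0) := by
  simp only [bI_sq hn h, Finset.sum_add_distrib]
  rw [sum_pk _ le_rfl, sum_pk _ (by omega), sum_pk _ (by omega), sum_pk _ (by omega),
    sum_pk _ (by omega)]

lemma tv_bI (hn : 0 < n) (h : Shr u S T T1 e) :
    tv (2 * N + 5) (bI n N β u S T T1 e) = β ^ 2 / n := by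
  unfold tv
  rw [sum_bI hn h, if_pos (by omega), if_pos (by omega), if_pos (by omega), if_pos (by omega),
    if_pos (by omega)]
  ring

lemma bt2_sum (n : ℕ) (b : ℕ → ℝ) (l : ℕ) :
    H379.Row.bt2 n b l = n * ∑ j ∈ Finset.range l, b (j + 1) ^ 2 := by
  unfold H379.Row.bt2
  rw [Fin.sum_univ_eq_sum_range (fun q => (n : ℝ) * b (q + 1) ^ 2), Finset.mul_sum]

lemma bt2_bI (hn : 0 < n) (h : Shr u S T T1 e) (l : ℕ) :
    H379.Row.bt2 n (bI n N β u S T T1 e) l =
      (if 1 ≤ l then β ^ 2 * (1 - S * u ^ 2) else 0) +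
      (if 2 ≤ l then β ^ 2 * ((S - T) * u ^ 2) else 0) +
      (if N + 3 ≤ l then β ^ 2 * (e * u ^ 2) else 0) +
      (if 2 * N + 4 ≤ l then β ^ 2 * ((T - e - T1) * u ^ 2) else 0) +
      (if 2 * N + 5 ≤ l then β ^ 2 * (T1 * u ^ 2) else 0) := by
  have hn' : (n : ℝ) ≠ 0 := by exact_mod_cast hn.ne'
  rw [bt2_sum, sum_bI hn h]
  have key : ∀ (P : Prop) [Decidable P] (x : ℝ), (n : ℝ) * (if P then β ^ 2 / n * x else 0) =
      if P then β ^ 2 * x else 0 := by
    intro P _ x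
    split_ifs
    · field_simp
    · ring
  rw [mul_add, mul_add, mul_add, mul_add, key, key, key, key, key]

lemma bt2_one (hn : 0 < n) (h : Shr u S T T1 e) :
    H379.Row.bt2 n (bI n N β u S T T1 e) 1 = β ^ 2 * (1 - S * u ^ 2) := by
  rw [bt2_bI hn h, if_pos le_rfl, if_neg (by omega), if_neg (by omega), if_neg (by omega),
    if_neg (by omega)]
  ring

/-- the bonds up to the first bundle -/
lemma bt2_C (hn : 0 < n) (h : Shr u S T T1 e) (h2 : 2 ≤ l) (hl : l ≤ N + 2) :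
    H379.Row.bt2 n (bI n N β u S T T1 e) l = β ^ 2 * (1 - T * u ^ 2) := by
  rw [bt2_bI hn h, if_pos (by omega), if_pos h2, if_neg (by omega), if_neg (by omega),
    if_neg (by omega)]
  ring

/-- the bonds up to the second bundle -/
lemma bt2_D (hn : 0 < n) (h : Shr u S T T1 e) (h2 : N + 3 ≤ l) (hl : l ≤ 2 * N + 3) :
    H379.Row.bt2 n (bI n N β u S T T1 e) l = β ^ 2 * (1 - (T - e) * u ^ 2) := by
  rw [bt2_bI hn h, if_pos (by omega), if_pos (by omega), if_pos h2, if_neg (by omega),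
    if_neg (by omega)]
  ring

lemma bI_nonneg (hβ : 0 ≤ β) (l : ℕ) : 0 ≤ bI n N β u S T T1 e l := by
  unfold bI
  split_ifs <;> positivity

lemma bI_K : bI n N β u S T T1 e (2 * N + 5) = β / √n * √(T1 * u ^ 2) := by
  unfold bI
  rw [if_neg (by omega), if_neg (by omega), if_neg (by omega), if_neg (by omega), if_pos rfl]

/-! ### the fields -/

/-- the amplitudes of the main fields -/
noncomputable def wI (N : ℕ) (u wa w : ℝ) (l : ℕ) : ℝ :=
  if l = 2 then √(wa * u ^ 3) else if l = 2 * N + 4 then √(w * u ^ 3) else 0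

/-- the levels of the bundles -/
def PI (N : ℕ) : Finset ℕ := (Finset.Icc 3 (2 * N + 3)).erase (N + 3)

lemma mem_PI {p : ℕ} : p ∈ PI N ↔ 3 ≤ p ∧ p ≤ 2 * N + 3 ∧ p ≠ N + 3 := by
  unfold PI
  rw [Finset.mem_erase, Finset.mem_Icc]
  tauto

lemma card_PI : (PI N).card = 2 * N := by
  unfold PI
  rw [Finset.card_erase_of_mem (by rw [Finset.mem_Icc]; omega), Nat.card_Icc]
  omega

lemma PI_K : ∀ p ∈ PI N, 1 ≤ p ∧ p ≤ 2 * N + 5 := fun p hp => by
  have := mem_PI.1 hp
  omega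

lemma wI_nonneg (l : ℕ) : 0 ≤ wI N u wa w l := by
  unfold wI
  split_ifs <;> positivity

lemma wI_sq (hu : 0 ≤ u) (ha : 0 ≤ wa) (hw : 0 ≤ w) (l : ℕ) : wI N u wa w l ^ 2 =
    pk 2 (wa * u ^ 3) l + pk (2 * N + 4) (w * u ^ 3) l := by
  have h1 : 0 ≤ wa * u ^ 3 := by positivity
  have h2 : 0 ≤ w * u ^ 3 := by positivity
  unfold wI pk
  by_cases c1 : l = 2
  · rw [if_pos c1, if_pos c1, if_neg (by omega), Real.sq_sqrt h1, add_zero]
  · by_cases c2 : l = 2 * N + 4
    · rw [if_neg c1, if_pos c2, if_neg c1, if_pos c2, Real.sq_sqrt h2, zero_add]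
    · rw [if_neg c1, if_neg c2, if_neg c1, if_neg c2]
      ring

/-- the main fields outside the bundles -/
lemma rst_wI (hu : 0 ≤ u) (ha : 0 ≤ wa) (hw : 0 ≤ w) :
    H758.rst (2 * N + 5) (wI N u wa w) (PI N) = wa * u ^ 3 + w * u ^ 3 := by
  have h0 : H758.rst (2 * N + 5) (wI N u wa w) (PI N) = tv (2 * N + 5) (wI N u wa w) := by
    rw [H758.tv_Icc]
    unfold H758.rst
    rw [Finset.sum_filter]
    refine Finset.sum_congr rfl fun j hj => ?_
    by_cases h : j ∈ PI N
    · rw [if_neg (not_not.2 h)]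
      have h1 := mem_PI.1 h
      unfold wI
      rw [if_neg (by omega), if_neg (by omega)]
      ring
    · rw [if_pos h]
  rw [h0]
  unfold tv
  simp only [wI_sq hu ha hw, Finset.sum_add_distrib]
  rw [sum_pk _ (by omega), sum_pk _ (by omega), if_pos (by omega), if_pos (by omega)]

section fields

variable {V : {p // p ∈ PI N} → ℝ}

/-- the amplitudes of all fields -/
noncomputable def aI (N : ℕ) (u wa w : ℝ) (V : {p // p ∈ PI N} → ℝ) : ℕ → ℝ :=
  amp (wI N u wa w) (PI N) V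

lemma aI_mem (p : {p // p ∈ PI N}) : aI N u wa w V p = √(V p) := amp_mem _ _ _ _

lemma aI_not {p : ℕ} (h : p ∉ PI N) : aI N u wa w V p = wI N u wa w p := by
  unfold aI amp
  rw [dif_neg h]

lemma aI_nonneg (l : ℕ) : 0 ≤ aI N u wa w V l := by
  by_cases h : l ∈ PI N
  · have := aI_mem (u := u) (wa := wa) (w := w) (V := V) ⟨l, h⟩
    rw [this]
    positivity
  · rw [aI_not h]
    exact wI_nonneg l

lemma aI_pos (hV : ∀ p, 0 < V p) {p : ℕ} (h : p ∈ PI N) : 0 < aI N u wa w V p := by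
  have := aI_mem (u := u) (wa := wa) (w := w) (V := V) ⟨p, h⟩
  rw [this]
  exact Real.sqrt_pos.2 (hV _)

lemma aI_two : aI N u wa w V 2 = √(wa * u ^ 3) := by
  rw [aI_not (by rw [mem_PI]; omega)]
  unfold wI
  rw [if_pos rfl]

lemma aI_v : aI N u wa w V (2 * N + 4) = √(w * u ^ 3) := by
  rw [aI_not (by rw [mem_PI]; omega)]
  unfold wI
  rw [if_neg (by omega), if_pos rfl]

lemma tv_aI (hu : 0 ≤ u) (ha : 0 ≤ wa) (hw : 0 ≤ w) (hV : ∀ p, 0 ≤ V p) :
    tv (2 * N + 5) (aI N u wa w V) = ∑ p, V p + (wa * u ^ 3 + w * u ^ 3) := by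
  rw [aI, H758.tv_amp _ PI_K hV, rst_wI hu ha hw]

/-- the fields below the level `2 N + 4` -/
lemma low_aI (hu : 0 ≤ u) (ha : 0 ≤ wa) (hw : 0 ≤ w) (hV : ∀ p, 0 ≤ V p) (hl : l ≤ 2 * N + 3) :
    ∑ j ∈ Finset.range l, aI N u wa w V (j + 1) ^ 2 ≤ ∑ p, V p + wa * u ^ 3 := by
  have h1 : ∑ j ∈ Finset.range l, aI N u wa w V (j + 1) ^ 2 ≤
      ∑ j ∈ Finset.range (2 * N + 3), aI N u wa w V (j + 1) ^ 2 :=
    Finset.sum_le_sum_of_subset_of_nonneg (Finset.range_mono hl) fun _ _ _ => sq_nonneg _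
  have h2 := tv_aI (wa := wa) (w := w) hu ha hw hV
  have h3 : tv (2 * N + 5) (aI N u wa w V) =
      ∑ j ∈ Finset.range (2 * N + 3), aI N u wa w V (j + 1) ^ 2 +
        aI N u wa w V (2 * N + 4) ^ 2 + aI N u wa w V (2 * N + 5) ^ 2 := by
    unfold tv
    rw [Finset.sum_range_succ, Finset.sum_range_succ]
  have h4 : aI N u wa w V (2 * N + 4) ^ 2 = w * u ^ 3 := by
    rw [aI_v, Real.sq_sqrt (by positivity)]
  have h5 : 0 ≤ aI N u wa w V (2 * N + 5) ^ 2 := sq_nonneg _
  linarith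

end fields

end Vale.Agent.P146.H393.In
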