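import Vale.Agent.P146.H393.InA
import Vale.Agent.P146.H758.Ent
import Vale.Agent.P146.H66.M4Num
import Vale.Agent.P146.H877x.RowU

/-!
# P146: the law of one share (helper393), selection of the fields and the good levels
-/

open MeasureTheory ProbabilityTheory

namespace Vale.Agent.P146.H393.In

open Vale.Agent.P157 Vale.Agent.P157.Lv Vale.Agent.P157.Lv.Sy
open Vale.Agent.P146.H425 Vale.Agent.P146.H325 Vale.Agent.P146.H985
open Vale.Agent.P146.H93 (Cd skS Em linS_sk)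
open Vale.Agent.P146.H186 (amp amp_mem wc)
open Vale.Agent.P146.H295 (gg spn zs zs_eq Th)
open Vale.Agent.P146.H758 (tv Ex2 Ap Pu)
open Vale.Agent.P146.H877x (Hz SB SB_nonneg bt2_nonneg)
open Vale.Agent.P146.H379.Row (bt2)

set_option linter.unusedSectionVars false

variable {n N : ℕ} {β u y a v z q S T T1 e wa w Y A E V1 R : ℝ}

lemma K0 : 0 < 2 * N + 5 := by omega

lemma Adm.exY (H : Adm N u y a v z q) (hY : z * u ≤ Y) (hY1 : Y ≤ 1) :
    Ex2 (2 * N + 5) (mI N u y a v z q) (y * u) Y where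
  em := H.em
  K1 := by omega
  y0 := mul_pos H.y0 H.u0
  Y1 := hY1
  ge := H.ex2.ge
  le := H.ex2.le.trans hY

/-- the selection of the variances of the bundles -/
theorem selI (hn : 0 < n) (hβ : 0 ≤ β) (H : Adm N u y a v z q) (h : Shr u S T T1 e)
    (ha : 0 ≤ wa) (hw : 0 ≤ w) (hE : 0 < E) (hA : Ap n β (y * u) Y V1 A E) (hY : z * u ≤ Y)
    (hY1 : Y ≤ 1) (hR : 0 < R) (hV : wa * u ^ 3 + w * u ^ 3 + 10 * N * R ≤ V1) :
    ∃ V : {p // p ∈ PI N} → ℝ, (∀ p, 2 * R < V p ∧ V p < 4 * R) ∧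
      ∀ p ∈ PI N, gg (skS n (2 * N + 5) (mI N u y a v z q) (bI n N β u S T T1 e)
        (aI N u wa w V)) (spn n) (zs K0) (aI N u wa w V) p p ≤
        64 * E / (y * u * n ^ 2 * R ^ 2) := by
  obtain ⟨V, hV1, -, -, hV2⟩ := H758.sel_box (J := Unit) (n := n) (β := β) (V1 := V1) (E := E)
    (R := R) (K := fun _ => 2 * N + 5) (m := fun _ => mI N u y a v z q)
    (b := fun _ => bI n N β u S T T1 e) (w := fun _ => wI N u wa w) (y := fun _ => y * u)
    (Y := fun _ => Y) (A := fun _ => A) (P := PI N) (c := fun _ => 3 * R) hn hβ hE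
    (fun _ => hA) (fun _ => H.exY hY hY1) (fun _ => tv_bI hn h) (fun _ => PI_K) hR
    (fun _ => by linarith) (fun _ => by
      rw [rst_wI H.u0.le ha hw, Finset.sum_const, Finset.card_univ, Fintype.card_coe, card_PI,
        nsmul_eq_mul]
      push_cast
      linarith)
  refine ⟨V, fun p => ?_, fun p hp => ?_⟩
  · have := abs_lt.1 (hV1 p)
    constructor <;> linarith
  · have h1 := hV2 () (zs K0) ⟨p, hp⟩ (funext fun i => zs_eq K0 (PI_K p hp) i)
    refine h1.trans ?_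
    have hp' := mem_PI.1 hp
    have hm := H.ge_y (l := p) (by omega) (by omega)
    have hy := mul_pos H.y0 H.u0
    have hn' : (0 : ℝ) < n := by exact_mod_cast hn
    rw [Fintype.card_unit, Nat.cast_one, mul_one]
    refine div_le_div_of_nonneg_left (by positivity) (by positivity) ?_
    show y * u * n ^ 2 * R ^ 2 ≤ mI N u y a v z q p * n ^ 2 * R ^ 2
    refine mul_le_mul_of_nonneg_right (mul_le_mul_of_nonneg_right hm ?_) ?_ <;> positivity

/-- the constant of the fourth moment -/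
noncomputable def C4 (β y T1 D0 : ℝ) : ℝ := 540 * (4 * D0 / (y * (β ^ 2 * T1))) ^ 2 + 2

lemma C4_two : 2 ≤ C4 β y T1 E := by
  unfold C4
  have : 0 ≤ (4 * E / (y * (β ^ 2 * T1))) ^ 2 := sq_nonneg _
  linarith

/-- the fourth moment of the overlap -/
theorem fourI {D0 : ℝ} {w' : ℕ → ℝ} (hn : 2 ≤ n) (hβ : 0 < β) (H : Adm N u y a v z q)
    (h : Shr u S T T1 e) (hT1 : 0 < T1) (hY : 2 * (z * u) ≤ Y) (hY1 : Y ≤ 1)
    (hD : Pu n β Y (tv (2 * N + 5) w') ≤
      (skS n (2 * N + 5) (mI N u y a v z q) (bI n N β u S T T1 e) w').fe + D0 * n * u ^ 5)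
    (hD0 : 1 ≤ y * D0 * (n * u ^ 6)) (hn2 : 1 ≤ n * u ^ 2) {l : ℕ} (hl : l < 2 * N + 5) :
    (skS n (2 * N + 5) (mI N u y a v z q) (bI n N β u S T T1 e) w').pairEx l
      (fun x x' => Rov (fun x i => sp x i) x x' ^ 4) ≤ C4 β y T1 D0 * u ^ 4 := by
  have hu := H.u0
  have hy := H.y0
  have hn' : (0 : ℝ) < n := by
    have : (2 : ℝ) ≤ n := by exact_mod_cast hn
    linarith
  have hz : 0 < z := H.v0.trans_le H.vz
  have hzu : 0 < z * u := mul_pos hz hu
  have hmK : mI N u y a v z q (2 * N + 5) = z * u := mI_z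
  have hb : bI n N β u S T T1 e (2 * N + 5) ^ 2 = β ^ 2 / n * (T1 * u ^ 2) := by
    rw [bI_K, mul_pow, div_pow, Real.sq_sqrt hn'.le, Real.sq_sqrt (by positivity)]
  have h1 := H66.sk_four_num (n := n) (K := 2 * N + 5) (m := mI N u y a v z q)
    (b := bI n N β u S T T1 e) (w := w') hn (by omega) H.em (by
      rw [bI_K]
      positivity) (κ := 1) (x := u) (E0 := D0) (τ := β ^ 2 * T1) (c1 := y) (c2 := y) one_pos
    le_rfl (by rw [hmK]; linarith) hu hy hy (by positivity) (by rw [mI_one])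
    (by rw [mI_one]) (by rw [hb]; field_simp; exact le_rfl) ?_ hD0 hn2 hl
  · refine h1.trans (le_of_eq ?_)
    unfold C4
    have e1 : 4 * y * D0 / (1 * y ^ 2 * (β ^ 2 * T1)) = 4 * D0 / (y * (β ^ 2 * T1)) := by
      field_simp
    rw [e1]
  · have hx := H.exY (by linarith : z * u ≤ Y) hY1
    refine H758.fe_inc_le hx hβ.le (tv_bI (by omega) h) hD (fun j h1 h2 => ?_) fun j h1 h2 => ?_
    · unfold H66.up
      split_ifs with hj
      · rw [hmK]; positivity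
      · exact hx.y0.trans_le (hx.yj (by omega) (by omega))
    · unfold H66.up
      split_ifs with hj
      · rw [hmK]; linarith
      · exact hx.Yj h2

/-- a good level: the a priori numbers and the deficits of the two fields -/
structure Gl (n K : ℕ) (hK : 0 < K) (m b w : ℕ → ℝ) (l : ℕ) (θ D κ B0 g : ℝ) : Prop where
  hz : Hz n K m b w l θ D κ B0
  g0 : gg (skS n K m b w) (spn n) (zs hK) w l l ≤ g
  g1 : gg (skS n K m b w) (spn n) (zs hK) w (l + 1) (l + 1) ≤ g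

/-- **The two good levels.** -/
theorem goodI {D0 δ g B0 κ : ℝ} {V : {p // p ∈ PI N} → ℝ} (hn : 2 ≤ n) (hβ : 0 < β)
    (H : Adm N u y a v z q) (h : Shr u S T T1 e) (ha : 0 ≤ wa) (hw : 0 ≤ w) (hT1 : 0 < T1)
    (hY : 2 * (z * u) ≤ Y) (hY1 : Y ≤ 1) (hV : ∀ p, 0 < V p)
    (hg : ∀ p ∈ PI N, gg (skS n (2 * N + 5) (mI N u y a v z q) (bI n N β u S T T1 e)
        (aI N u wa w V)) (spn n) (zs K0) (aI N u wa w V) p p ≤ g)
    (hD : Pu n β Y (tv (2 * N + 5) (aI N u wa w V)) ≤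
      (skS n (2 * N + 5) (mI N u y a v z q) (bI n N β u S T T1 e) (aI N u wa w V)).fe +
        D0 * n * u ^ 5)
    (hD0 : 1 ≤ y * D0 * (n * u ^ 6)) (hn2 : 1 ≤ n * u ^ 2)
    (hδ : 0 < δ) (hδ1 : δ ≤ 1)
    (hδ2 : 5 * (C4 β y T1 D0 * u) ^ 2 / (N - 2) + 20 * g / st N u v q ^ 2 ≤ (δ * u) ^ 2)
    (hB : 1 ≤ B0) (hBβ : β ^ 2 ≤ B0) (hκ : ∑ p, V p + wa * u ^ 3 ≤ κ)
    (hz2 : z ≤ 2) (hθ1 : C4 β y T1 D0 * u ≤ 1)
    (hsm : 4 * (C4 β y T1 D0 * u) ^ 2 * (B0 + κ) ≤ 1 / 4) (hTu : 0 ≤ T) :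
    ∃ l1 l0 : ℕ, (3 ≤ l1 ∧ l1 < N + 1) ∧ (N + 4 ≤ l0 ∧ l0 < 2 * N + 2) ∧
      Gl n (2 * N + 5) K0 (mI N u y a v z q) (bI n N β u S T T1 e) (aI N u wa w V) l1
        (C4 β y T1 D0 * u) (δ * u) κ B0 g ∧
      Gl n (2 * N + 5) K0 (mI N u y a v z q) (bI n N β u S T T1 e) (aI N u wa w V) l0
        (C4 β y T1 D0 * u) (δ * u) κ B0 g := by
  have hu := H.u0
  have hC2 := C4_two (β := β) (y := y) (T1 := T1) (E := D0)
  obtain ⟨C, hC⟩ : ∃ C, C = C4 β y T1 D0 := ⟨_, rfl⟩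
  have h4 := fun {l : ℕ} (hl : l < 2 * N + 5) => fourI (l := l) hn hβ H h hT1 hY hY1 hD hD0 hn2 hl
  rw [← hC] at hC2 h4 hδ2 hθ1 hsm ⊢
  have hS : (skS n (2 * N + 5) (mI N u y a v z q) (bI n N β u S T T1 e) (aI N u wa w V)).Reg :=
    (linS_sk H.em _ _).reg
  obtain ⟨Q, hQ⟩ : ∃ Q, Q = skS n (2 * N + 5) (mI N u y a v z q) (bI n N β u S T T1 e)
    (aI N u wa w V) := ⟨_, rfl⟩
  have hQK : Q.K = 2 * N + 5 := by rw [hQ]; rfl
  have hC1 : 1 ≤ C := by linarith
  have hC44 : C ≤ C ^ 4 := by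
    calc C = C ^ 1 := (pow_one C).symm
      _ ≤ C ^ 4 := pow_le_pow_right₀ hC1 (by norm_num)
  have h4' : ∀ {l : ℕ}, l < 2 * N + 5 → Q.pairEx l (fun x x' => Rov (fun x i => sp x i) x x' ^ 4) ≤
      (C * u) ^ 4 := by
    intro l hl
    rw [hQ]
    refine (h4 hl).trans ?_
    rw [mul_pow]
    exact mul_le_mul_of_nonneg_right hC44 (by positivity)
  -- the second moment
  have hTh : ∀ {l : ℕ}, l < 2 * N + 5 → Th Q (spn n) l ≤ (C * u) ^ 2 := by
    intro l hl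
    have hlQ : l ≤ Q.K := by omega
    have h1 := H295.pair_sq_le (hQ ▸ hS : Q.Reg) hlQ (fun x x' => Rov (fun x i => sp x i) x x' ^ 2)
    have e4 : (fun x x' : Fin n → ℤˣ => (Rov (fun x i => sp x i) x x' ^ 2) ^ 2) =
        fun x x' => Rov (fun x i => sp x i) x x' ^ 4 := by
      funext x x'
      ring
    rw [e4] at h1
    have h2 := h1.trans (h4' hl)
    have h3 : (Th Q (spn n) l) ^ 2 ≤ ((C * u) ^ 2) ^ 2 := by
      refine h2.trans (le_of_eq ?_)
      ring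
    exact le_of_sq_le_sq h3 (by positivity)
  have hN2 : (0 : ℝ) < N - 2 := by
    have : (3 : ℝ) ≤ N := by exact_mod_cast H.N3
    linarith
  have hNN := H.N3
  have hst := H.st0
  -- the concentration
  have hconc : ∀ a' c' : ℕ, 3 ≤ a' → c' + 1 ≤ 2 * N + 3 → a' < c' →
      (∀ p, a' ≤ p → p ≤ c' + 1 → p ≠ N + 3) → (c' : ℝ) - a' = N - 2 →
      ∃ l, a' ≤ l ∧ l < c' ∧ Q.pairEx l (fun x x' => (Rov (spn n) x x' - Q.Rl (spn n) l) ^ 2) ≤
        (δ * u) ^ 2 := by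
    intro a' c' h1 h2 h3 h5 h6
    have hc := H295.conc_sk (n := n) (K := 2 * N + 5) (m := mI N u y a v z q)
      (b := bI n N β u S T T1 e) (w := aI N u wa w V) (by omega) K0 H.em (a := a') (c := c')
      (by omega) h3 (by omega) (fun p hp1 hp2 => aI_pos hV (by
        rw [mem_PI]
        exact ⟨by omega, by omega, h5 p hp1 hp2⟩)) (π := st N u v q) (γ := g) hst
      (fun l hl1 hl2 => (mI_step (by omega) (by omega)).ge)
      (fun l hl1 hl2 => hg l (by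
        rw [mem_PI]
        exact ⟨by omega, by omega, h5 l hl1 hl2⟩))
    obtain ⟨l, hl1, hl2, hl3⟩ := hc
    refine ⟨l, hl1, hl2, ?_⟩
    rw [← hQ] at hl3
    have h7 : 5 * Th Q (spn n) c' / (c' - a') ≤ 5 * (C * u) ^ 2 / (N - 2) := by
      rw [h6]
      exact div_le_div_of_nonneg_right (by linarith [hTh (l := c') (by omega)]) hN2.le
    have h8 : 0 ≤ 2 * (Q.Rl (spn n) (l + 1) - Q.Rl (spn n) l) ^ 2 := by positivity
    linarith
  have hκ0 : 0 ≤ wa * u ^ 3 := by positivity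
  -- the structure
  have mk : ∀ l : ℕ, 3 ≤ l → l + 1 ≤ 2 * N + 3 → l ≠ N + 3 → l + 1 ≠ N + 3 →
      Q.pairEx l (fun x x' => (Rov (spn n) x x' - Q.Rl (spn n) l) ^ 2) ≤ (δ * u) ^ 2 →
      Gl n (2 * N + 5) K0 (mI N u y a v z q) (bI n N β u S T T1 e) (aI N u wa w V) l
        (C * u) (δ * u) κ B0 g := by
    intro l h1 h2 h3 h5 h6
    refine ⟨?_, hg l (by rw [mem_PI]; omega), hg (l + 1) (by rw [mem_PI]; omega)⟩
    refine { θ0 := by positivity, θ1 := hθ1, D0 := by positivity, Dθ := ?_, mθ := ?_, κw := ?_,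
             B1 := hB, bB := ?_, sm := hsm, h4 := ?_, h2 := ?_ }
    · exact mul_le_mul_of_nonneg_right (by linarith) hu.le
    · refine (H.le_z (by omega)).trans ?_
      exact mul_le_mul_of_nonneg_right (by linarith) hu.le
    · refine (low_aI hu.le ha hw (fun p => (hV p).le) (by omega)).trans hκ
    · have hT' : 0 ≤ T * u ^ 2 := by positivity
      have he : 0 ≤ (T - e) * u ^ 2 := mul_nonneg (by linarith [h.eT, h.T10]) (sq_nonneg u)
      have hβ2 := sq_nonneg β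
      by_cases hl : l ≤ N + 2
      · rw [bt2_C (by omega) h (by omega) hl]
        nlinarith
      · rw [bt2_D (by omega) h (by omega) (by omega)]
        nlinarith
    · rw [← hQ]
      exact h4' (by omega)
    · rw [← hQ]
      exact h6
  obtain ⟨l1, a1, a2, a3⟩ := hconc 3 (N + 1) le_rfl (by omega) (by omega) (fun p _ _ => by omega)
    (by push_cast; ring)
  obtain ⟨l0, b1, b2, b3⟩ := hconc (N + 4) (2 * N + 2) (by omega) (by omega) (by omega)
    (fun p _ _ => by omega) (by push_cast; ring)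
  exact ⟨l1, l0, ⟨a1, a2⟩, ⟨b1, b2⟩, mk l1 a1 (by omega) (by omega) (by omega) a3,
    mk l0 (by omega) (by omega) (by omega) (by omega) b3⟩

end Vale.Agent.P146.H393.In
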