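import Vale.Agent.P146.H393.InB
import Vale.Agent.P146.H479.Th

/-!
# P146: the law of one share (helper393), supergradients in the fields and in the share
-/

open MeasureTheory ProbabilityTheory

namespace Vale.Agent.P146.H393.In

open Vale.Agent.P157 Vale.Agent.P157.Lv Vale.Agent.P157.Lv.Sy
open Vale.Agent.P146.H425 Vale.Agent.P146.H325 Vale.Agent.P146.H985
open Vale.Agent.P146.H93 (Cd skS Em linS_sk)
open Vale.Agent.P146.H186 (amp amp_mem wc cSK)
open Vale.Agent.P146.H295 (gg spn zs zs_eq Th)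
open Vale.Agent.P146.H758 (tv Ex2 Ap Pu)
open Vale.Agent.P146.H479 (chiB gv Na QB Tq Rq)

set_option linter.unusedSectionVars false

variable {n N K : ℕ} {m b w' : ℕ → ℝ} {β u y a v z q S T T' T1 e wa wb w wc Y A E V1 R : ℝ}

lemma sum_pk_mul {i : ℕ} (c : ℝ) (f : ℕ → ℝ) (h1 : 1 ≤ i) (h2 : i ≤ K) :
    ∑ j : Fin K, pk i c (j + 1) * f (j + 1) = c * f i := by
  have hi : i - 1 < K := by omega
  rw [Finset.sum_eq_single (⟨i - 1, hi⟩ : Fin K)]
  · have e1 : i - 1 + 1 = i := by omega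
    simp only [e1, pk, if_true]
  · intro j _ hj
    have : (j : ℕ) + 1 ≠ i := fun h => hj (Fin.ext (by simp; omega))
    rw [pk, if_neg this, zero_mul]
  · intro h
    exact absurd (Finset.mem_univ _) h

/-- the pairing for two peaks in the fields -/
lemma gv_field {w1 w2 : ℕ → ℝ} {i j : ℕ} {ci cj : ℝ} (hi : 1 ≤ i) (hiK : i ≤ K) (hj : 1 ≤ j)
    (hjK : j ≤ K) (h : ∀ l, w2 l ^ 2 - w1 l ^ 2 = pk i ci l + pk j cj l) :
    gv n K m b w1 b w2 = 1 / 2 * (ci * cSK n K m b w1 i + cj * cSK n K m b w1 j) := by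
  unfold gv
  congr 1
  rw [← sum_pk_mul ci (cSK n K m b w1) hi hiK, ← sum_pk_mul cj (cSK n K m b w1) hj hjK,
    ← Finset.sum_add_distrib]
  refine Finset.sum_congr rfl fun l _ => ?_
  rw [h (l + 1), sub_self]
  ring

/-- the pairing for two peaks in the bonds -/
lemma gv_bond {b1 b2 : ℕ → ℝ} {i j : ℕ} {ci cj : ℝ} (hi : 1 ≤ i) (hiK : i ≤ K) (hj : 1 ≤ j)
    (hjK : j ≤ K) (h : ∀ l, b2 l ^ 2 - b1 l ^ 2 = pk i ci l + pk j cj l) :
    gv n K m b1 w' b2 w' = 1 / 2 * (ci * chiB n K m b1 w' i + cj * chiB n K m b1 w' j) := by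
  unfold gv
  congr 1
  rw [← sum_pk_mul ci (chiB n K m b1 w') hi hiK, ← sum_pk_mul cj (chiB n K m b1 w') hj hjK,
    ← Finset.sum_add_distrib]
  refine Finset.sum_congr rfl fun l _ => ?_
  rw [h (l + 1), sub_self]
  ring

/-- the change of the main fields -/
lemma aI_sq_sub {V : {p // p ∈ PI N} → ℝ} (hu : 0 ≤ u) (ha : 0 ≤ wa) (hw : 0 ≤ w)
    (hb : 0 ≤ wb) (hc : 0 ≤ wc) (l : ℕ) :
    aI N u wb wc V l ^ 2 - aI N u wa w V l ^ 2 =
      pk 2 ((wb - wa) * u ^ 3) l + pk (2 * N + 4) ((wc - w) * u ^ 3) l := by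
  by_cases h : l ∈ PI N
  · have h1 := mem_PI.1 h
    have e1 : aI N u wb wc V l = √(V ⟨l, h⟩) := aI_mem (u := u) (V := V) ⟨l, h⟩
    have e2 : aI N u wa w V l = √(V ⟨l, h⟩) := aI_mem (u := u) (V := V) ⟨l, h⟩
    rw [e1, e2, pk, pk, if_neg (by omega), if_neg (by omega)]
    ring
  · rw [aI_not h, aI_not h, wI_sq hu hb hc, wI_sq hu ha hw]
    unfold pk
    split_ifs <;> ring

/-- the change of the share -/
lemma bI_sq_sub (hn : 0 < n) (hN : 3 ≤ N) (h : Shr u S T T1 e) (h' : Shr u S T' T1 e) (l : ℕ) :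
    bI n N β u S T' T1 e l ^ 2 - bI n N β u S T T1 e l ^ 2 =
      pk 2 (-(β ^ 2 / n * ((T' - T) * u ^ 2))) l +
        pk (2 * N + 4) (β ^ 2 / n * ((T' - T) * u ^ 2)) l := by
  rw [bI_sq hn h, bI_sq hn h']
  unfold pk
  by_cases c2 : l = 2
  · subst c2
    have e1 : ¬ (2 : ℕ) = 1 := by omega
    have e2 : ¬ (2 : ℕ) = N + 3 := by omega
    have e3 : ¬ (2 : ℕ) = 2 * N + 4 := by omega
    have e4 : ¬ (2 : ℕ) = 2 * N + 5 := by omega
    simp only [e1, e2, e3, e4, if_true, if_false]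
    ring
  · by_cases c4 : l = 2 * N + 4
    · have e1 : ¬ l = 1 := by omega
      have e2 : ¬ l = N + 3 := by
        have := hN
        omega
      have e4 : ¬ l = 2 * N + 5 := by omega
      simp only [e1, e2, c2, e4, if_pos c4, if_false]
      ring
    · simp only [if_neg c2, if_neg c4]
      ring

section ag

variable {V : {p // p ∈ PI N} → ℝ} (H : Adm N u y a v z q) (h : Shr u S T T1 e)

lemma na_b (hβ : 0 ≤ β) : Na K (bI n N β u S T T1 e) := fun j _ _ => bI_nonneg hβ j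

lemma na_w : Na K (aI N u wa w V) := fun j _ _ => aI_nonneg j

/-- two changes of the main fields -/
theorem ag_field (hβ : 0 ≤ β) (H : Adm N u y a v z q) (ha : 0 ≤ wa) (hw : 0 ≤ w) (hb : 0 ≤ wb)
    (hc : 0 ≤ wc) :
    (skS n (2 * N + 5) (mI N u y a v z q) (bI n N β u S T T1 e) (aI N u wb wc V)).fe ≤
      (skS n (2 * N + 5) (mI N u y a v z q) (bI n N β u S T T1 e) (aI N u wa w V)).fe +
      1 / 2 * ((wb - wa) * u ^ 3 * cSK n (2 * N + 5) (mI N u y a v z q) (bI n N β u S T T1 e)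
          (aI N u wa w V) 2 +
        (wc - w) * u ^ 3 * cSK n (2 * N + 5) (mI N u y a v z q) (bI n N β u S T T1 e)
          (aI N u wa w V) (2 * N + 4)) := by
  have h1 := H479.fe_super (n := n) H.em (na_b (n := n) (N := N) (β := β) (u := u) (S := S)
    (T := T) (T1 := T1) (e := e) hβ) (na_w (V := V) (u := u) (wa := wa) (w := w))
    (na_b (n := n) (N := N) (β := β) (u := u) (S := S) (T := T) (T1 := T1) (e := e) hβ)
    (na_w (V := V) (u := u) (wa := wb) (w := wc))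
  rw [gv_field (by omega) (by omega) (by omega) (by omega)
    (aI_sq_sub H.u0.le ha hw hb hc)] at h1
  exact h1

/-- the change of the share -/
theorem ag_share (hn : 0 < n) (hβ : 0 ≤ β) (H : Adm N u y a v z q) (h : Shr u S T T1 e)
    (h' : Shr u S T' T1 e) {ω : ℕ → ℝ} (hω : Na (2 * N + 5) ω) :
    (skS n (2 * N + 5) (mI N u y a v z q) (bI n N β u S T' T1 e) ω).fe ≤
      (skS n (2 * N + 5) (mI N u y a v z q) (bI n N β u S T T1 e) ω).fe +
      1 / 2 * (β ^ 2 / n * ((T' - T) * u ^ 2)) *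
        (chiB n (2 * N + 5) (mI N u y a v z q) (bI n N β u S T T1 e) ω (2 * N + 4) -
          chiB n (2 * N + 5) (mI N u y a v z q) (bI n N β u S T T1 e) ω 2) := by
  have h1 := H479.fe_super (n := n) H.em (na_b (n := n) (N := N) (β := β) (u := u) (S := S)
    (T := T) (T1 := T1) (e := e) hβ) hω (na_b (n := n) (N := N) (β := β) (u := u) (S := S)
    (T := T') (T1 := T1) (e := e) hβ) hω
  rw [gv_bond (by omega) (by omega) (by omega) (by omega) (bI_sq_sub hn H.N3 h h')] at h1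
  refine h1.trans (le_of_eq ?_)
  ring

end ag

/-! ### the differences of the responses -/

lemma chiB_sub {i j : ℕ} (hij : i ≤ j) (hj : j ≤ K + 1) (ω : ℕ → ℝ) :
    chiB n K m b ω j - chiB n K m b ω i =
      ∑ l ∈ Finset.Ico i j, (m (l + 1) - m l) * QB n K m b ω l := by
  rw [H479.chiB_eq, H479.chiB_eq, ← Finset.sum_Ico_consecutive _ hij hj]
  ring

lemma cSK_sub (hn : 0 < n) {i j : ℕ} (hij : i ≤ j) (hj : j ≤ K + 1) (ω : ℕ → ℝ) :
    cSK n K m b ω j - cSK n K m b ω i =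
      n * ∑ l ∈ Finset.Ico i j, (m (l + 1) - m l) * Rq n K m b ω l := by
  rw [H479.cSK_Rq hn, H479.cSK_Rq hn, ← Finset.sum_Ico_consecutive _ hij hj]
  ring

/-- a weighted sum over the levels between the gap and the level `2 N + 4` -/
lemma sum_gap {C : ℝ} (H : Adm N u y a v z q) {f : ℕ → ℝ} (hf : ∀ l, 2 ≤ l → l < 2 * N + 4 →
    f l ≤ C) (hC : 0 ≤ C) (hf2 : 0 ≤ f 2) :
    ∑ l ∈ Finset.Ico 2 (2 * N + 4), (mI N u y a v z q (l + 1) - mI N u y a v z q l) * f l ≤
      (v - a) * u * f 2 + v * u * q * C := by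
  have hu := H.u0
  have hst := H.st0
  rw [Finset.sum_eq_sum_Ico_succ_bot (by omega : 2 < 2 * N + 4)]
  have h3 := H.mid (l := 3) le_rfl (by omega)
  have h1 : (mI N u y a v z q (2 + 1) - mI N u y a v z q 2) * f 2 ≤ (v - a) * u * f 2 := by
    refine mul_le_mul_of_nonneg_right ?_ hf2
    rw [mI_two]
    linarith [h3.2]
  have h2 : ∑ l ∈ Finset.Ico (2 + 1) (2 * N + 4),
      (mI N u y a v z q (l + 1) - mI N u y a v z q l) * f l ≤ v * u * q * C := by
    have e1 : ∀ l ∈ Finset.Ico (2 + 1) (2 * N + 4),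
        (mI N u y a v z q (l + 1) - mI N u y a v z q l) * f l ≤ st N u v q * C := by
      intro l hl
      rw [Finset.mem_Ico] at hl
      rw [mI_step (by omega) (by omega)]
      exact mul_le_mul_of_nonneg_left (hf l (by omega) (by omega)) hst.le
    refine (Finset.sum_le_sum e1).trans ?_
    rw [Finset.sum_const, Nat.card_Ico, nsmul_eq_mul, ← mul_assoc]
    refine mul_le_mul_of_nonneg_right ?_ hC
    have hv := H.v0
    have hq := H.q0
    have e2 : ((2 * N + 4 - (2 + 1) : ℕ) : ℝ) = 2 * N + 1 := by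
      rw [show 2 * N + 4 - (2 + 1) = 2 * N + 1 by omega]
      push_cast
      ring
    rw [e2]
    unfold st
    rw [mul_div_assoc', div_le_iff₀ (by positivity)]
    have : 0 ≤ v * u * q := by positivity
    nlinarith
  linarith

end Vale.Agent.P146.H393.In
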