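import Vale.Agent.P146.H393.InC
import Vale.Agent.P146.H479.AGN
import Vale.Agent.P146.H437.Grid

/-!
# P146: the law of one share (helper393), unit letters, the frame of `RowU` and `RowF`
-/

open MeasureTheory ProbabilityTheory Set

namespace Vale.Agent.P146.H393.In

open Vale.Agent.P157 Vale.Agent.P157.Lv Vale.Agent.P157.Lv.Sy
open Vale.Agent.P146.H425 Vale.Agent.P146.H325 Vale.Agent.P146.H985 Vale.Agent.P146.U
open Vale.Agent.P146.H93 (Cd skS Em linS_sk)
open Vale.Agent.P146.H186 (amp amp_mem wc cSK)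
open Vale.Agent.P146.H295 (gg spn zs zs_eq Th)
open Vale.Agent.P146.H758 (tv Ex2 Ap Pu)
open Vale.Agent.P146.H479 (chiB gv Na QB Tq Rq thU alU ag_unit)
open Vale.Agent.P146.H437 (psiN RowU RowF)

set_option linter.unusedSectionVars false

variable {n N : ℕ} {β κ u y a v z q S T T' T1 e wa w w' Y A E V1 R d d1 d2 r C C0 τ : ℝ}
  {V : {p // p ∈ PI N} → ℝ}

/-- the bundled law of one share in the units of the scale `u` -/
noncomputable def psiB (n N : ℕ) (β u y a v z q S T1 e : ℝ) (V : {p // p ∈ PI N} → ℝ)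
    (T wa w : ℝ) : ℝ :=
  ((skS n (2 * N + 5) (mI N u y a v z q) (bI n N β u S T T1 e) (aI N u wa w V)).fe -
    P1 n β (51 / 100 * u) - n * ((wa + w) * u ^ 3 + ∑ p, V p) / (2 * β)) / (n * u ^ 5)

/-- the slope in the share -/
noncomputable def thB (n N : ℕ) (β u y a v z q S T1 e : ℝ) (V : {p // p ∈ PI N} → ℝ)
    (T wa w : ℝ) : ℝ :=
  thU n (2 * N + 5) (mI N u y a v z q) (bI n N β u S T T1 e) (aI N u wa w V) β u 2 (2 * N + 4)

/-- the response of the level `l` -/
noncomputable def alB (n N : ℕ) (β u y a v z q S T1 e : ℝ) (V : {p // p ∈ PI N} → ℝ)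
    (T wa w : ℝ) (l : ℕ) : ℝ :=
  alU n (2 * N + 5) (mI N u y a v z q) (bI n N β u S T T1 e) (aI N u wa w V) β u l

/-- **AG of the bundled law** in the share and in the field of the level `2 N + 4`. -/
theorem ag_psiB (hn : 0 < n) (hβ : 0 < β) (H : Adm N u y a v z q) (h : Shr u S T T1 e)
    (h' : Shr u S T' T1 e) (ha : 0 ≤ wa) (hw : 0 ≤ w) (hw' : 0 ≤ w') :
    psiB n N β u y a v z q S T1 e V T' wa w' ≤ psiB n N β u y a v z q S T1 e V T wa w +
      thB n N β u y a v z q S T1 e V T wa w * (T' - T) +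
      alB n N β u y a v z q S T1 e V T wa w (2 * N + 4) / (4 * β) * (w' - w) := by
  have hu := H.u0
  have hb := bI_sq_sub (β := β) hn H.N3 h h'
  have ha' := aI_sq_sub (V := V) (N := N) hu.le ha hw ha hw'
  refine ag_unit (n := n) (K := 2 * N + 5) hn hβ hu H.em (na_b hβ.le) na_w (na_b hβ.le) na_w
    (p := 2) (q := 2 * N + 4) (by omega) (by omega) (by omega) ?_ ?_ ?_ ?_ ?_ ?_
  · have := hb 2
    rw [pk, pk, if_pos rfl, if_neg (by omega)] at this
    linarith
  · have := hb (2 * N + 4)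
    rw [pk, pk, if_neg (by omega), if_pos rfl] at this
    linarith
  · intro j _ _ h3 h4
    have := hb j
    rw [pk, pk, if_neg h3, if_neg h4] at this
    linarith
  · have := ha' (2 * N + 4)
    rw [pk, pk, if_neg (by omega), if_pos rfl] at this
    linarith
  · intro j _ _ h4
    have := ha' j
    rw [pk, pk, if_neg h4] at this
    have e1 : (if j = 2 then (wa - wa) * u ^ 3 else 0) = 0 := by
      split_ifs <;> ring
    linarith
  · ring

/-- the S3 input: bundled against plain -/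
def S3H (n N : ℕ) (β u y a v z q S T1 e τ d : ℝ) (V : {p // p ∈ PI N} → ℝ) (W : Set ℝ) : Prop :=
  ∀ T ∈ Icc τ S, ∀ w ∈ W,
    |psiB n N β u y a v z q S T1 e V T 0 w - psiN n β T1 u S a v z T 0 w| ≤ d ∧
    |psiB n N β u y a v z q S T1 e V T w 0 - psiN n β T1 u S a v z T w 0| ≤ d

lemma tq_nn {K l : ℕ} {m b ω : ℕ → ℝ} (hm : Em K m) (hl : l ≤ K) : 0 ≤ Tq n K m b ω l :=
  (linS_sk (n := n) hm b ω).reg.pairEx_nonneg hl fun _ _ => sq_nonneg _

/-- the slope is at most the squared overlap at the gap -/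
lemma thB_le (hn : 0 < n) (hβ : 0 < β) (H : Adm N u y a v z q)
    (hC : Tq n (2 * N + 5) (mI N u y a v z q) (bI n N β u S T T1 e) (aI N u wa w V)
      (2 * N + 3) ≤ (C * u) ^ 2) :
    thB n N β u y a v z q S T1 e V T wa w ≤ β ^ 2 / 4 * ((v - a) * (Tq n (2 * N + 5)
      (mI N u y a v z q) (bI n N β u S T T1 e) (aI N u wa w V) 2 / u ^ 2) + v * q * C ^ 2) := by
  have hu := H.u0
  have hv := H.v0
  have h1 := H479.thU_le (n := n) (K := 2 * N + 5) (b := bI n N β u S T T1 e)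
    (w := aI N u wa w V) (β := β) (u := u) (p := 2) (g := 2) (q := 2 * N + 4) hn H.em
    le_rfl (by omega) (by omega) hu
  unfold thB
  refine h1.trans ?_
  have e1 : 2 * N + 4 - 1 = 2 * N + 3 := by omega
  rw [e1]
  have T2 := tq_nn (n := n) (b := bI n N β u S T T1 e) (ω := aI N u wa w V) (l := 2)
    H.em (by omega)
  have T3 := tq_nn (n := n) (b := bI n N β u S T T1 e) (ω := aI N u wa w V)
    (l := 2 * N + 3) H.em (by omega)
  have h3 := H.mid (l := 3) le_rfl (by omega)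
  have m2 : mI N u y a v z q 2 = a * u := mI_two
  have m4 : mI N u y a v z q (2 * N + 4) = v * u := mI_v
  rw [m2, m4]
  generalize Tq n (2 * N + 5) (mI N u y a v z q) (bI n N β u S T T1 e) (aI N u wa w V) 2 = t2 at *
  generalize Tq n (2 * N + 5) (mI N u y a v z q) (bI n N β u S T T1 e) (aI N u wa w V)
    (2 * N + 3) = t3 at *
  have a1 : (mI N u y a v z q (2 + 1) - a * u) * t2 ≤ (v * u - a * u) * t2 :=
    mul_le_mul_of_nonneg_right (by linarith [h3.2]) T2
  have a2 : (v * u - mI N u y a v z q (2 + 1)) * t3 ≤ (v * u * q) * (C * u) ^ 2 := by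
    refine mul_le_mul (by linarith [h3.1]) hC T3 ?_
    have := H.q0
    positivity
  have a3 : β ^ 2 / 4 * ((v - a) * (t2 / u ^ 2) + v * q * C ^ 2) =
      β ^ 2 / 4 * ((v * u - a * u) * t2 + (v * u * q) * (C * u) ^ 2) / u ^ 3 := by
    field_simp
  rw [a3]
  rw [← mul_div_assoc]
  refine div_le_div_of_nonneg_right ?_ (by positivity)
  have hβ2 : 0 ≤ β ^ 2 / 4 := by positivity
  exact mul_le_mul_of_nonneg_left (add_le_add a1 a2) hβ2

/-- **lower bound of the response of the main field** -/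
lemma alB_ge {V : {p // p ∈ PI N} → ℝ} (hn : 0 < n) (hβ : 0 < β) (H : Adm N u y a v z q) (h : Shr u S T T1 e)
    (ha : 0 ≤ wa) (hw : 0 ≤ w) (hV : ∀ p, 0 ≤ V p)
    (hA : Ap n β (y * u) Y V1 A E) (hY : z * u ≤ Y) (hY1 : Y ≤ 1) (hV1 : ∑ p, V p + (wa + (w + 1)) * u ^ 3 ≤ V1) :
    -(8 * β * (E / (n * u ^ 5))) ≤ alB n N β u y a v z q S T1 e V T wa w (2 * N + 4) := by
  have hu := H.u0
  have hn' : (0 : ℝ) < n := Nat.cast_pos.2 hn
  have hX := H.exY hY hY1
  have h1 := ag_psiB (V := V) hn hβ H h h ha hw (w' := w + 1) (by linarith)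
  have t1 := tv_aI (N := N) (u := u) (wa := wa) (w := w) (V := V) hu.le ha hw hV
  have t2 := tv_aI (N := N) (u := u) (wa := wa) (w := w + 1) (V := V) hu.le ha (by linarith) hV
  have u3 : 0 < u ^ 3 := by positivity
  have n1 := H758.near hA hX hβ.le (tv_bI hn h) (w := aI N u wa w V) (by rw [t1]; linarith)
  have n2 := H758.near hA hX hβ.le (tv_bI hn h) (w := aI N u wa (w + 1) V)
    (by rw [t2]; linarith)
  rw [t1] at n1
  rw [t2] at n2
  have m1 := (abs_le.1 n1).2
  have m2 := (abs_le.1 n2).1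
  have hD : 0 < (n : ℝ) * u ^ 5 := by positivity
  unfold psiB at h1
  rw [sub_self, mul_zero, add_zero] at h1
  generalize (skS n (2 * N + 5) (mI N u y a v z q) (bI n N β u S T T1 e)
    (aI N u wa (w + 1) V)).fe = f2 at *
  generalize (skS n (2 * N + 5) (mI N u y a v z q) (bI n N β u S T T1 e)
    (aI N u wa w V)).fe = f1 at *
  generalize alB n N β u y a v z q S T1 e V T wa w (2 * N + 4) = α at *
  have e1 : (f1 - P1 n β (51 / 100 * u) - n * ((wa + w) * u ^ 3 + ∑ p, V p) / (2 * β)) /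
      (n * u ^ 5) + α / (4 * β) * (w + 1 - w) =
      (f1 - P1 n β (51 / 100 * u) - n * ((wa + w) * u ^ 3 + ∑ p, V p) / (2 * β) +
        α / (4 * β) * (n * u ^ 5)) / (n * u ^ 5) := by
    field_simp
    ring
  rw [e1] at h1
  have h2 := (div_le_div_iff_of_pos_right hD).1 h1
  have h3 : -(2 * E) ≤ α / (4 * β) * (n * u ^ 5) := by
    have e2 : n * ((wa + (w + 1)) * u ^ 3 + ∑ p, V p) / (2 * β) =
        n * ((wa + w) * u ^ 3 + ∑ p, V p) / (2 * β) + n / β / 2 * u ^ 3 := by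
      field_simp
      ring
    rw [e2] at h2
    have e3 : A + n / β / 2 * (∑ p, V p + (wa * u ^ 3 + (w + 1) * u ^ 3)) =
        A + n / β / 2 * (∑ p, V p + (wa * u ^ 3 + w * u ^ 3)) + n / β / 2 * u ^ 3 := by ring
    rw [e3] at m2
    linarith
  have h4 : -(8 * β * E) ≤ α * (n * u ^ 5) := by
    have := mul_le_mul_of_nonneg_left h3 (by positivity : (0 : ℝ) ≤ 4 * β)
    have e4 : 4 * β * (α / (4 * β) * (n * u ^ 5)) = α * (n * u ^ 5) := by
      field_simp
    rw [e4] at this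
    linarith
  have h5 : -(8 * β * E) / (n * u ^ 5) ≤ α := by
    rw [div_le_iff₀ hD]
    exact h4
  refine le_trans (le_of_eq ?_) h5
  ring

/-- **One share of `RowU` from the row of the bundled law.** -/
theorem rowU_of {W : Set ℝ} (hn : 0 < n) (hβ : 0 < β) (hW : W ⊆ Icc 0 1)
    (H : Adm N u y a v z q) (hsh : ∀ T ∈ Icc τ S, Shr u S T T1 e)
    (hS3 : S3H n N β u y a v z q S T1 e τ d V W) (hT : T ∈ Icc τ S) (hwW : w ∈ W) {α θ : ℝ}
    (hα : alB n N β u y a v z q S T1 e V T 0 w (2 * N + 4) = α)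
    (hθ : thB n N β u y a v z q S T1 e V T 0 w = θ) :
    (∀ w' ∈ W, psiN n β T1 u S a v z T 0 w' ≤
      psiN n β T1 u S a v z T 0 w + 1 / (4 * β) * α * (w' - w) + 2 * d) ∧
    (∀ T' ∈ Icc τ S, psiN n β T1 u S a v z T' 0 w ≤
      psiN n β T1 u S a v z T 0 w + θ * (T' - T) + 2 * d) := by
  have hw0 := (hW hwW).1
  have h0 := (abs_le.1 (hS3 T hT w hwW).1)
  constructor
  · intro w' hw'
    have h1 := ag_psiB (V := V) hn hβ H (hsh T hT) (hsh T hT) le_rfl hw0 (hW hw').1
    have h2 := (abs_le.1 (hS3 T hT w' hw').1)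
    rw [hα, hθ, sub_self, mul_zero, add_zero] at h1
    have e1 : 1 / (4 * β) * α * (w' - w) = α / (4 * β) * (w' - w) := by ring
    rw [e1]
    linarith [h2.1, h0.2]
  · intro T' hT'
    have h1 := ag_psiB (V := V) hn hβ H (hsh T hT) (hsh T' hT') le_rfl hw0 hw0
    have h2 := (abs_le.1 (hS3 T' hT' w hwW).1)
    rw [hα, hθ, sub_self, mul_zero, add_zero] at h1
    linarith [h2.1, h0.2]

end Vale.Agent.P146.H393.In
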