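import Vale.Agent.P146.H877x.RowV
import Vale.Agent.P146.H508.D3SK

/-!
# P146: the errors of the rows in the units of the scale `u` (helper393)
-/

open MeasureTheory ProbabilityTheory

namespace Vale.Agent.P146.H393.In

open Vale.Agent.P157 Vale.Agent.P157.Lv Vale.Agent.P157.Lv.Sy
open Vale.Agent.P146.H425 Vale.Agent.P146.H325 Vale.Agent.P146.H985
open Vale.Agent.P146.H93 (Cd skS Em linS_sk)
open Vale.Agent.P146.H877x (KV eV eU KV_one)

set_option linter.unusedSectionVars false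

variable {n l : ℕ} {m w : ℕ → ℝ} {u C dc dl k g η ω B0 t : ℝ}

/-- the error of the row in unit letters -/
noncomputable def eR (n : ℕ) (u C dc dl k g η ω B0 t : ℝ) : ℝ :=
  KV ^ 2 * (300 * B0 ^ 3) * (2 * g / η + C / (ω * (n * u ^ 5)) +
    (dc * C ^ 2 + C ^ 4 * u + k * C ^ 2 * u ^ 2) / t + t * (C ^ 3 + k * C * u) +
    1 / (n * u ^ 3)) + B0 * (8 * dl * C ^ 2 + 2 * dc * C ^ 2)

/-- **The error of the row in unit letters.** -/
theorem eV_le (hn : 0 < n) (hu : 0 < u) (hC : 0 ≤ C) (hg : 0 ≤ g) (hη : 0 < η) (hω : 0 < ω)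
    (hB : 1 ≤ B0) (hgap : η * u ≤ m (l + 1) - m l)
    (hw : ω * u ^ 3 ≤ w (l + 1) ^ 2) :
    eV n m w l (C * u) (dc * u) (k * u ^ 3) B0 (g * u ^ 4) (g * u ^ 4) t (dl * u) ≤
      eR n u C dc dl k g η ω B0 t * u ^ 3 := by
  have hn' : (0 : ℝ) < n := by exact_mod_cast hn
  have hgu : 0 ≤ g * u ^ 4 := by positivity
  have hηu : 0 < η * u := by positivity
  have s1 : (g * u ^ 4 + √(g * u ^ 4 * (g * u ^ 4))) / (m (l + 1) - m l) ≤
      2 * g / η * u ^ 3 := by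
    rw [Real.sqrt_mul_self hgu]
    calc (g * u ^ 4 + g * u ^ 4) / (m (l + 1) - m l) ≤ (g * u ^ 4 + g * u ^ 4) / (η * u) :=
          div_le_div_of_nonneg_left (by positivity) hηu hgap
      _ = _ := by field_simp; ring
  have s2 : C * u / (n * w (l + 1) ^ 2) ≤ C / (ω * (n * u ^ 5)) * u ^ 3 := by
    calc C * u / (n * w (l + 1) ^ 2) ≤ C * u / (n * (ω * u ^ 3)) :=
          div_le_div_of_nonneg_left (by positivity) (by positivity)
            (mul_le_mul_of_nonneg_left hw hn'.le)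
      _ = _ := by field_simp
  have s3 : (dc * u * (C * u) ^ 2 + (C * u) ^ 4 + k * u ^ 3 * (C * u) ^ 2) / t =
      (dc * C ^ 2 + C ^ 4 * u + k * C ^ 2 * u ^ 2) / t * u ^ 3 := by ring
  have s4 : t * ((C * u) ^ 3 + k * u ^ 3 * (C * u)) = t * (C ^ 3 + k * C * u) * u ^ 3 := by ring
  have s5 : (1 : ℝ) / n = 1 / (n * u ^ 3) * u ^ 3 := by field_simp
  have hK : 0 ≤ KV ^ 2 * (300 * B0 ^ 3) := by
    have := KV_one
    positivity
  unfold eV eU eR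
  rw [s3, s4]
  have e1 : B0 * (8 * (dl * u) * (C * u) ^ 2 + 2 * (dc * u) * (C * u) ^ 2) =
      B0 * (8 * dl * C ^ 2 + 2 * dc * C ^ 2) * u ^ 3 := by ring
  rw [e1, add_mul, mul_assoc (KV ^ 2 * (300 * B0 ^ 3))]
  refine add_le_add (mul_le_mul_of_nonneg_left ?_ hK) le_rfl
  rw [add_mul, add_mul, add_mul, add_mul, ← s5]
  linarith

/-- the error of the third chaos in unit letters -/
noncomputable def e3R (u C dc k B0 z : ℝ) : ℝ :=
  50000000000 * (1 + B0) ^ 4 * (dc * C ^ 2 + z * C ^ 3 * u + C ^ 4 * u + k * C ^ 2 * u ^ 2)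

theorem e3_le {K : ℕ} {b : ℕ → ℝ} {κ z : ℝ} (hu : 0 < u) (hC : 0 ≤ C) (hk : 0 ≤ k)
    (hdc : 0 ≤ dc) (hz : 0 ≤ z)
    (hmK : m K ≤ z * u) (hB : H379.Row.bt2 n b l ≤ B0) (hκ : κ ≤ k * u ^ 3) :
    H508.e3 n K m b l (C * u) (dc * u) κ ≤ e3R u C dc k B0 z * u ^ 3 := by
  have hb := H508.bt2_nonneg n b l
  unfold H508.e3 e3R
  have h1 : (1 + H379.Row.bt2 n b l) ^ 4 ≤ (1 + B0) ^ 4 :=
    pow_le_pow_left₀ (by linarith) (by linarith) 4
  have h2 : dc * u * (C * u) ^ 2 + m K * (C * u) ^ 3 + (C * u) ^ 4 + κ * (C * u) ^ 2 ≤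
      (dc * C ^ 2 + z * C ^ 3 * u + C ^ 4 * u + k * C ^ 2 * u ^ 2) * u ^ 3 := by
    have a1 : m K * (C * u) ^ 3 ≤ z * u * (C * u) ^ 3 :=
      mul_le_mul_of_nonneg_right hmK (by positivity)
    have a2 : κ * (C * u) ^ 2 ≤ k * u ^ 3 * (C * u) ^ 2 :=
      mul_le_mul_of_nonneg_right hκ (by positivity)
    have e : (dc * C ^ 2 + z * C ^ 3 * u + C ^ 4 * u + k * C ^ 2 * u ^ 2) * u ^ 3 =
        dc * u * (C * u) ^ 2 + z * u * (C * u) ^ 3 + (C * u) ^ 4 + k * u ^ 3 * (C * u) ^ 2 := by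
      ring
    rw [e]
    linarith
  have h3 : 0 ≤ (dc * C ^ 2 + z * C ^ 3 * u + C ^ 4 * u + k * C ^ 2 * u ^ 2) * u ^ 3 := by
    positivity
  calc 50000000000 * (1 + H379.Row.bt2 n b l) ^ 4 *
        (dc * u * (C * u) ^ 2 + m K * (C * u) ^ 3 + (C * u) ^ 4 + κ * (C * u) ^ 2)
      ≤ 50000000000 * (1 + B0) ^ 4 *
        ((dc * C ^ 2 + z * C ^ 3 * u + C ^ 4 * u + k * C ^ 2 * u ^ 2) * u ^ 3) :=
        (mul_le_mul_of_nonneg_left h2 (by positivity)).trans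
          (mul_le_mul_of_nonneg_right (mul_le_mul_of_nonneg_left h1 (by norm_num)) h3)
    _ = _ := by ring

end Vale.Agent.P146.H393.In
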