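import Vale.Agent.P146.H393.InD

/-!
# P146: the local energy of the law of one share (helper393)

If the energy of `psiU S (1 + κ)` at the field `w` is at least `-C1`, the energy of the bundled law
of every share at the field `w` is within a constant of the upper bound.
-/

open MeasureTheory ProbabilityTheory Set

namespace Vale.Agent.P146.H393.In

open Vale.Agent.P157 Vale.Agent.P157.Lv Vale.Agent.P157.Lv.Sy
open Vale.Agent.P146.H425 Vale.Agent.P146.H325 Vale.Agent.P146.H985 Vale.Agent.P146.U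
open Vale.Agent.P146.H93 (Cd skS Em linS_sk)
open Vale.Agent.P146.H758 (tv Ex2 Ap Pu)
open Vale.Agent.P146.H437 (psiN RowU RowF psiN_mono psiN_T1 psiU_ind lower_le)
open Vale.Agent.P146.H560 (psiU mU bU wU em_mU)

set_option linter.unusedSectionVars false

variable {n N : ℕ} {β κ κ' u y a v z q S T T1 e wa w w' Y A E V1 R d d1 d2 r C C0 C1 Cu τ : ℝ}

/-- the upper energy input at the scale `u` -/
def UpP (n : ℕ) (β u Cu : ℝ) : Prop :=
  ∀ V : ℝ, 0 ≤ V → V ≤ 8 * u ^ 3 →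
    Pu n β (4 * u) V ≤ P1 n β (51 / 100 * u) + n / (2 * β) * V + Cu * (n * u ^ 5)

lemma tv_wU (hu : 0 ≤ u) (hw : 0 ≤ w) : tv 3 (wU u w) = w * u ^ 3 := by
  unfold tv
  rw [Finset.sum_range_succ, Finset.sum_range_succ, Finset.sum_range_succ, Finset.sum_range_zero]
  show 0 + (0 : ℝ) ^ 2 + √(w * u ^ 3) ^ 2 + (0 : ℝ) ^ 2 = w * u ^ 3
  rw [Real.sq_sqrt (by positivity)]
  ring

lemma tv_bU (hn : 0 < n) (hT1 : 0 ≤ T1) (hTS : T1 ≤ S) (hSu : S * u ^ 2 ≤ 1) :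
    tv 3 (bU n β T1 u S) = β ^ 2 / n := by
  have hn' : (0 : ℝ) < n := by exact_mod_cast hn
  have key : ∀ x : ℝ, 0 ≤ x → (β / √n * √x) ^ 2 = β ^ 2 / n * x := by
    intro x hx
    rw [mul_pow, div_pow, Real.sq_sqrt hn'.le, Real.sq_sqrt hx]
  unfold tv
  rw [Finset.sum_range_succ, Finset.sum_range_succ, Finset.sum_range_succ, Finset.sum_range_zero]
  show 0 + (β / √n * √(1 - S * u ^ 2)) ^ 2 + (β / √n * √((S - T1) * u ^ 2)) ^ 2 +
    (β / √n * √(T1 * u ^ 2)) ^ 2 = β ^ 2 / n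
  rw [key _ (by linarith), key _ (mul_nonneg (by linarith) (sq_nonneg _)),
    key _ (by positivity)]
  ring

/-- the upper energy of the plain laws -/
lemma psiU_up (hn : 0 < n) (hβ : 0 < β) (hu : 0 < u) (h4 : 4 * u ≤ 1) (hκ' : 0 ≤ κ')
    (hκ3 : κ' ≤ 3) (hT1 : 0 ≤ T1) (hTS : T1 ≤ S) (hSu : S * u ^ 2 ≤ 1) (hv : 51 / 100 ≤ v)
    (hv' : v ≤ 1 + κ') (hw : 0 ≤ w) (hw8 : w ≤ 8) (hP : UpP n β u Cu) :
    psiU n β κ' T1 u S v w ≤ Cu := by
  have hn' : (0 : ℝ) < n := by exact_mod_cast hn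
  have hz : (1 + κ') * u ≤ 4 * u := mul_le_mul_of_nonneg_right (by linarith) hu.le
  have hem : Em 3 (mU κ' u v) := em_mU hu hv hv' (hz.trans h4)
  have hX : Ex2 3 (mU κ' u v) (51 / 100 * u) (4 * u) :=
    { em := hem, K1 := by omega, y0 := by positivity, Y1 := h4,
      ge := le_rfl, le := hz }
  have h1 := (H758.sandwich (w := wU u w) hX hβ.le (tv_bU (β := β) hn hT1 hTS hSu)).2
  rw [tv_wU hu.le hw] at h1
  have h2 := hP (w * u ^ 3) (by positivity)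
    (mul_le_mul_of_nonneg_right hw8 (by positivity))
  have hD : 0 < (n : ℝ) * u ^ 5 := by positivity
  unfold psiU
  rw [div_le_iff₀ hD]
  have e : (n : ℝ) / (2 * β) * (w * u ^ 3) = n * (w * u ^ 3) / (2 * β) := by ring
  rw [e] at h2
  linarith

/-- the lower energy of the plain laws of four levels -/
lemma psiN_lo (hn : 0 < n) (hβ : 0 < β) (hu : 0 < u) (h4 : 4 * u ≤ 1) (hκ : 0 < κ)
    (hκ1 : κ ≤ 1 / 200) (hr : 0 ≤ r) (hrκ : r ≤ κ) (hT1 : 0 ≤ T1) (hT1T : T1 ≤ T) (hTS : T ≤ S)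
    (hτ : 0 ≤ τ) (hτS : τ ≤ S)
    (hSu : S * u ^ 2 ≤ 1) (hwa : 0 ≤ wa) (hw : 0 ≤ w) (hw8 : wa + w ≤ 8) (hP : UpP n β u Cu)
    (hC1 : -C1 ≤ psiU n β κ τ u S (1 + κ) (wa + w)) :
    -(C1 + r * (Cu + C1)) ≤ psiN n β T1 u S (1 + κ - r) (1 + κ) (1 + κ) T wa w := by
  have hz : (1 + κ) * u ≤ 1 := by nlinarith
  have h2z : (1 + (1 + κ)) * u ≤ 1 := by nlinarith
  have h1 := psiN_mono (n := n) (β := β) (T1 := T1) (u := u) (S := S) (a := 1 + κ - r)
    (v := 1 + κ) (z := 1 + κ) (T := T1) (T' := T) (wa := wa + w) (w := 0) (wa' := wa) (w' := w)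
    hn hβ.le hu (by linarith) (by linarith) le_rfl hz le_rfl hT1T hTS hwa le_rfl (by linarith)
    (by ring)
  rw [psiN_T1 hu (by linarith) (by linarith) le_rfl hz] at h1
  have h2 := lower_le (n := n) (β := β) (κ := κ) (τ := T1) (u := u) (S := S) (r := r) hn hu
    hκ.le h2z hr hrκ (wa + w)
  have h3 := psiU_up (T1 := T1) (S := S) (v := 1 + (1 + κ)) (κ' := 1 + κ) hn hβ hu h4
    (by linarith) (by linarith) hT1 (hT1T.trans hTS) hSu (by linarith) le_rfl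
    (by linarith : 0 ≤ wa + w) hw8 hP
  have h5 := psiU_ind (n := n) (β := β) (w := wa + w) hu (by linarith : (51 : ℝ) / 100 ≤ 1 + κ)
    hz hT1 (hT1T.trans hTS) hτ hτS
  rw [h5] at h2
  have h6 : psiU n β κ τ u S (1 + κ) (wa + w) - psiU n β κ T1 u S (1 + κ - r) (wa + w) ≤
      r * (Cu + C1) := h2.trans (mul_le_mul_of_nonneg_left (by linarith) hr)
  linarith

/-- **The local energy of the bundled law.** -/
theorem dloc {V : {p // p ∈ PI N} → ℝ} (hn : 0 < n) (hβ : 0 < β) (hu : 0 < u)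
    (hwa : 0 ≤ wa) (hw : 0 ≤ w) (hV : ∀ p, 0 ≤ V p)
    (hV8 : ∑ p, V p + (wa + w) * u ^ 3 ≤ 8 * u ^ 3) (hP : UpP n β u Cu)
    (hlo : -E ≤ psiN n β T1 u S a v z T wa w)
    (hS3 : |psiB n N β u (51 / 100) a v z q S T1 e V T wa w -
      psiN n β T1 u S a v z T wa w| ≤ d) :
    Pu n β (4 * u) (tv (2 * N + 5) (aI N u wa w V)) ≤
      (skS n (2 * N + 5) (mI N u (51 / 100) a v z q) (bI n N β u S T T1 e)
        (aI N u wa w V)).fe + (Cu + E + d) * n * u ^ 5 := by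
  have hn' : (0 : ℝ) < n := by exact_mod_cast hn
  have hD : 0 < (n : ℝ) * u ^ 5 := by positivity
  have t1 := tv_aI (N := N) (u := u) (wa := wa) (w := w) (V := V) hu.le hwa hw hV
  have hs : 0 ≤ ∑ p, V p := Finset.sum_nonneg fun p _ => hV p
  rw [t1]
  have h1 := hP (∑ p, V p + (wa * u ^ 3 + w * u ^ 3)) (by positivity) (by linarith)
  have h2 : -(E + d) ≤ psiB n N β u (51 / 100) a v z q S T1 e V T wa w := by
    have := (abs_le.1 hS3).1
    linarith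
  unfold psiB at h2
  rw [le_div_iff₀ hD] at h2
  generalize (skS n (2 * N + 5) (mI N u (51 / 100) a v z q) (bI n N β u S T T1 e)
    (aI N u wa w V)).fe = f at *
  have e1 : (n : ℝ) / (2 * β) * (∑ p, V p + (wa * u ^ 3 + w * u ^ 3)) =
      n * ((wa + w) * u ^ 3 + ∑ p, V p) / (2 * β) := by ring
  rw [e1] at h1
  have e2 : (Cu + E + d) * n * u ^ 5 = Cu * (n * u ^ 5) + (E + d) * (n * u ^ 5) := by ring
  rw [e2]
  linarith

end Vale.Agent.P146.H393.In
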