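import Vale.Agent.P146.H393.InD
import Vale.Agent.P146.H877x.PerT

/-!
# P146: the law of one share (helper393), the upper side of one share
-/

open MeasureTheory ProbabilityTheory Set

namespace Vale.Agent.P146.H393.In

open Vale.Agent.P157 Vale.Agent.P157.Lv Vale.Agent.P157.Lv.Sy
open Vale.Agent.P146.H425 Vale.Agent.P146.H325 Vale.Agent.P146.H985 Vale.Agent.P146.U
open Vale.Agent.P146.H93 (Cd skS Em linS_sk)
open Vale.Agent.P146.H93.Pnum (CU KU)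
open Vale.Agent.P146.H186 (amp amp_mem wc cSK)
open Vale.Agent.P146.H295 (gg spn zs zs_eq Th)
open Vale.Agent.P146.H758 (tv Ex2 Ap Pu)
open Vale.Agent.P146.H479 (chiB gv Na QB Tq Rq thU alU ag_unit)
open Vale.Agent.P146.H437 (psiN RowU RowF)
open Vale.Agent.P146.H877x (Gd Hz eT KV perU')

set_option linter.unusedSectionVars false

variable {n N l l0 l1 : ℕ} {β κ u y a v z q S T T' T1 e wa w w' Y A E V1 R d r C C0 τ : ℝ}
  {θ D B0 γ t ε : ℝ} {V : {p // p ∈ PI N} → ℝ}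

/-- the mean overlap at most the fourth moment -/
lemma Rl_le_four {K : ℕ} {m b ω : ℕ → ℝ} (hn : 0 < n) (hK : 0 < K) (hm : Em K m) (hl : l ≤ K)
    (hθ : 0 ≤ θ) (h4 : (skS n K m b ω).pairEx l
      (fun x x' => Rov (fun x i => sp x i) x x' ^ 4) ≤ θ ^ 4) :
    Tq n K m b ω l ≤ θ ^ 2 ∧ (skS n K m b ω).Rl H325.sp l ≤ θ := by
  have hS : (skS n K m b ω).Reg := (linS_sk hm b ω).reg
  have hlK : l ≤ (skS n K m b ω).K := hl
  have F := H295.fldP_sk hn hK hm b ω (P := fun _ => False) (fun _ h => h.elim)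
  obtain ⟨Q, hQ⟩ : ∃ Q, Q = skS n K m b ω := ⟨_, rfl⟩
  have h1 := H295.pair_sq_le hS hlK (fun x x' => Rov (spn n) x x' ^ 2)
  have e4 : (fun x x' : Fin n → ℤˣ => (Rov (spn n) x x' ^ 2) ^ 2) =
      fun x x' => Rov (fun x i => sp x i) x x' ^ 4 := by
    funext x x'
    show (Rov (spn n) x x' ^ 2) ^ 2 = Rov (spn n) x x' ^ 4
    ring
  rw [e4] at h1
  have h2 : Tq n K m b ω l ≤ θ ^ 2 := by
    have h3 : Tq n K m b ω l ^ 2 ≤ (θ ^ 2) ^ 2 := by
      refine (h1.trans h4).trans (le_of_eq ?_)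
      ring
    exact le_of_sq_le_sq h3 (by positivity)
  refine ⟨h2, ?_⟩
  have h5 := H295.pair_sq_le hS hlK (fun x x' => Rov (spn n) x x')
  have h6 : (skS n K m b ω).Rl H325.sp l = (skS n K m b ω).pairEx l (Rov H325.sp) :=
    F.Rl_eq_pairEx hlK
  have h7 : (skS n K m b ω).Rl H325.sp l ^ 2 ≤ θ ^ 2 := by
    rw [h6]
    exact h5.trans h2
  exact le_of_sq_le_sq h7 hθ

/-- a good level of the law in the letters of helper877 -/
lemma Gl.gd (H : Adm N u y a v z q) (hR : 0 < R) (hV : ∀ p, R ≤ V p)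
    (h3 : 3 ≤ l) (hl : l + 1 ≤ 2 * N + 3) (h4 : l ≠ N + 3) (h5 : l + 1 ≠ N + 3)
    (G : Gl n (2 * N + 5) K0 (mI N u y a v z q) (bI n N β u S T T1 e) (aI N u wa w V) l
      θ D κ B0 γ) :
    Gd n (2 * N + 5) (mI N u y a v z q) (bI n N β u S T T1 e) (aI N u wa w V) l γ
      (st N u v q) R where
  l1 := by omega
  lK := by omega
  w0 := aI_pos (fun p => hR.trans_le (hV p)) (by rw [mem_PI]; omega)
  w1 := aI_pos (fun p => hR.trans_le (hV p)) (by rw [mem_PI]; omega)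
  π0 := H.st0
  gap := (mI_step h3 (by omega)).ge
  R0 := hR
  fld := by
    have hp : l + 1 ∈ PI N := by rw [mem_PI]; omega
    have := aI_mem (u := u) (wa := wa) (w := w) (V := V) ⟨l + 1, hp⟩
    rw [this, Real.sq_sqrt (hR.le.trans (hV _))]
    exact hV _
  g0 := G.g0
  g1 := G.g1

/-- **The second moment at the gap**: the upper side at one share. -/
theorem perI (hn : 0 < n) (hβ : 1 ≤ β) (H : Adm N u y a v z q) (h : Shr u S T T1 e)
    (he : 0 < e) (hT : 0 ≤ T) (hTu : T * u ^ 2 ≤ 1 / 2) (hv : 1 / 2 ≤ v) (ht : 0 < t)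
    (ht1 : t ≤ 1) (hR : 0 < R) (hV : ∀ p, R ≤ V p)
    (h0 : 3 ≤ l0 ∧ l0 < N + 1) (h1 : N + 4 ≤ l1 ∧ l1 < 2 * N + 2)
    (G0 : Gl n (2 * N + 5) K0 (mI N u y a v z q) (bI n N β u S T T1 e) (aI N u wa w V) l0
      θ D κ B0 γ)
    (G1 : Gl n (2 * N + 5) K0 (mI N u y a v z q) (bI n N β u S T T1 e) (aI N u wa w V) l1
      θ D κ B0 γ)
    (h4 : (skS n (2 * N + 5) (mI N u y a v z q) (bI n N β u S T T1 e) (aI N u wa w V)).pairEx
      (2 * N + 3) (fun x x' => Rov (fun x i => sp x i) x x' ^ 4) ≤ θ ^ 4)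
    (hvθ : v * u ≤ θ) (hzθ : z * u ≤ 2 * θ) (hκθ : κ + B0 / n ≤ θ)
    (hα : -1 ≤ alB n N β u y a v z q S T1 e V T wa w (2 * N + 4) * u ^ 2)
    (hε : 0 < ε) (hε1 : ε ≤ 1)
    (E1 : KV ^ 2 * (60 * B0 ^ 3) * (D * θ ^ 2 + θ ^ 4 + κ) + 16 * κ +
      2 * eT n θ D κ B0 γ (st N u v q) R t (v * u * q) ≤ ε * u ^ 3)
    (E2 : D ^ 2 ≤ ε * u ^ 2)
    (E3 : 6 * (θ ^ 2 * (β ^ 2 * (e * u ^ 2)) +
      2 * eT n θ D κ B0 γ (st N u v q) R t (v * u * q) / (ε * u)) ≤ ε * u ^ 2)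
    (E4 : 48 * κ ≤ ε * u ^ 3)
    (E5 : 48 * (θ ^ 2 * (β ^ 2 * (e * u ^ 2)) +
      2 * eT n θ D κ B0 γ (st N u v q) R t (v * u * q) / (ε * u)) < e * u ^ 2) :
    Tq n (2 * N + 5) (mI N u y a v z q) (bI n N β u S T T1 e) (aI N u wa w V) 2 / u ^ 2 ≤
      (1 + CU β (KV ^ 2 * (60 * B0 ^ 3)) *
        max (alB n N β u y a v z q S T1 e V T wa w (2 * N + 4) - T) 0) *
        (max (alB n N β u y a v z q S T1 e V T wa w (2 * N + 4) - T) 0 /
          (β * (v + (v - a)))) ^ 2 +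
      (KU (KV ^ 2 * (60 * B0 ^ 3)) (v - a) * ε +
        6 * (T * u ^ 2) / (β * (v + (v - a))) ^ 2) := by
  have hu := H.u0
  have hv0 := H.v0
  have hq0 := H.q0
  have hθ := G0.hz.θ0
  have ha0 : 0 < a := H.y0.trans_le H.ya
  have hav : a < v := by
    have := H.av
    nlinarith [mul_pos hv0 hq0]
  have hN3 := H.N3
  have hb := G0.gd H hR hV h0.1 (by omega) (by omega) (by omega)
  have hb1 := G1.gd H hR hV (by omega) (by omega) (by omega) (by omega)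
  have hρ := (Rl_le_four hn K0 H.em (by omega : 2 * N + 3 ≤ 2 * N + 5) hθ.le h4).2
  have hmv : mI N u y a v z q (2 * N + 4) = v * u := mI_v
  have hmz : mI N u y a v z q (2 * N + 5) = z * u := mI_z
  have hm2 : mI N u y a v z q (3 - 1) = a * u := mI_two
  have hC0 : H379.Row.bt2 n (bI n N β u S T T1 e) l0 = β ^ 2 * (1 - T * u ^ 2) :=
    bt2_C hn h (by omega) (by omega)
  have hD1 : H379.Row.bt2 n (bI n N β u S T T1 e) l1 = β ^ 2 * (1 - (T - e) * u ^ 2) :=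
    bt2_D hn h (by omega) (by omega)
  have hC2 : H379.Row.bt2 n (bI n N β u S T T1 e) (3 - 1) = β ^ 2 * (1 - T * u ^ 2) :=
    bt2_C hn h (by omega) (by omega)
  have key := perU' (n := n) (K := 2 * N + 5) (m := mI N u y a v z q)
    (b := bI n N β u S T T1 e) (w := aI N u wa w V) (l0 := l0) (l1 := l1) (a := 3)
    (q := 2 * N + 4) (θ := θ) (D := D) (κ := κ) (B0 := B0) (δ := v * u * q) (γ := γ)
    (π := st N u v q) (R := R) (t := t) (β := β) (u := u) (s := T) (v := v) (g := v - a) (e := e)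
    (ε := ε) H.em hn (by omega) h0.1 (by omega) (by omega) (by omega) hb hb1 ht ht1
    (by
      have := (H.mid (l := 3) le_rfl (by omega)).1
      rw [hmv]
      linarith [show v * u * (1 - q) = v * u - v * u * q by ring])
    (by rw [hmv]; exact hvθ) (by rw [hmz]; exact hzθ)
    (by rw [show 2 * N + 4 - 1 = 2 * N + 3 by omega]; exact hρ)
    G0.hz G1.hz hκθ hβ hu hT hTu hα hC0 (by rw [hC2, hC0]) (by rw [hD1, hC0]; ring) he hv
    (by linarith) (by linarith) hmv (by rw [hmv, hm2]; ring) hε hε1 E1 E2 E3 E4 E5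
  exact key

/-- the last step in real numbers -/
lemma th_num {b A P Tt Cn v a C q k ε T' d2 : ℝ} (hb : 1 ≤ b) (hv : 1 ≤ v) (hav : a < v)
    (hCn : 0 ≤ Cn) (hA : A = max P 0) (hT' : 0 ≤ T')
    (hTt : Tt ≤ (1 + Cn * A) * (A / (b * (v + (v - a)))) ^ 2 +
      (k * ε + 6 * T' / (b * (v + (v - a))) ^ 2))
    (hd : b ^ 2 * (k * ε + 6 * T') * (v - a) + b ^ 2 * (v * q * C ^ 2) ≤ (v - a) * d2) :
    b ^ 2 / 4 * ((v - a) * Tt + v * q * C ^ 2) ≤ (v - a) / 4 * ((1 + Cn * A) * A ^ 2 + d2) := by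
  have hA0 : 0 ≤ A := by rw [hA]; exact le_max_right _ _
  have hva : 0 < v - a := by linarith
  have hQ : 1 ≤ v + (v - a) := by linarith
  have hb0 : 0 < b := by linarith
  obtain ⟨Q, hQd⟩ : ∃ Q, Q = v + (v - a) := ⟨_, rfl⟩
  rw [← hQd] at hTt hQ
  have hQ0 : 0 < Q := by linarith
  have h1 : (A / (b * Q)) ^ 2 ≤ A ^ 2 / b ^ 2 := by
    rw [← div_pow]
    refine pow_le_pow_left₀ (by positivity) ?_ 2
    refine div_le_div_of_nonneg_left hA0 hb0 ?_
    nlinarith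
  have h2 : 6 * T' / (b * Q) ^ 2 ≤ 6 * T' := by
    refine div_le_self (by positivity) ?_
    have : 1 ≤ b * Q := by nlinarith
    exact one_le_pow₀ this
  have h3 : Tt ≤ (1 + Cn * A) * (A ^ 2 / b ^ 2) + (k * ε + 6 * T') := by
    have := mul_le_mul_of_nonneg_left h1 (by positivity : 0 ≤ 1 + Cn * A)
    linarith
  have h4 : b ^ 2 * Tt ≤ (1 + Cn * A) * A ^ 2 + b ^ 2 * (k * ε + 6 * T') := by
    have := mul_le_mul_of_nonneg_left h3 (sq_nonneg b)
    refine this.trans (le_of_eq ?_)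
    field_simp
  have h5 := mul_le_mul_of_nonneg_left h4 hva.le
  have e1 : b ^ 2 / 4 * ((v - a) * Tt + v * q * C ^ 2) =
      1 / 4 * ((v - a) * (b ^ 2 * Tt) + b ^ 2 * (v * q * C ^ 2)) := by ring
  rw [e1]
  have e2 : (v - a) / 4 * ((1 + Cn * A) * A ^ 2 + d2) =
      1 / 4 * ((v - a) * ((1 + Cn * A) * A ^ 2) + (v - a) * d2) := by ring
  rw [e2]
  refine mul_le_mul_of_nonneg_left ?_ (by norm_num)
  have e3 : (v - a) * ((1 + Cn * A) * A ^ 2 + b ^ 2 * (k * ε + 6 * T')) =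
      (v - a) * ((1 + Cn * A) * A ^ 2) + b ^ 2 * (k * ε + 6 * T') * (v - a) := by ring
  rw [e3] at h5
  linarith

end Vale.Agent.P146.H393.In
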