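import Vale.Agent.P146.H393.InH
import Vale.Agent.P146.H437.Dloc

/-!
# P146: `RowU` at one scale, the numbers as hypotheses (helper393)
-/

open MeasureTheory ProbabilityTheory Set

namespace Vale.Agent.P146.H393.In

open Vale.Agent.P157 Vale.Agent.P157.Lv Vale.Agent.P157.Lv.Sy
open Vale.Agent.P146.H425 Vale.Agent.P146.H325 Vale.Agent.P146.H985 Vale.Agent.P146.U
open Vale.Agent.P146.H93 (Cd skS Em linS_sk)
open Vale.Agent.P146.H93.Pnum (CU KU)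
open Vale.Agent.P146.H186 (amp amp_mem wc cSK)
open Vale.Agent.P146.H295 (gg spn zs zs_eq Th)
open Vale.Agent.P146.H758 (tv Ex2 Ap Pu)
open Vale.Agent.P146.H479 (chiB gv Na QB Tq Rq thU alU ag_unit)
open Vale.Agent.P146.H437 (psiN RowU RowF ApE PuUp)
open Vale.Agent.P146.H877x (Gd Hz eT KV KV_one perU')
open Vale.Agent.P146.H560 (psiU)

set_option linter.unusedSectionVars false

variable {n N : ℕ} {β κ u q S τ r A E R d d1 d2 C C0 C1 CP D0 Cc E1 k δ t ε : ℝ} {W : Set ℝ}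

lemma CU_nonneg {b C : ℝ} (hb : 0 ≤ b) (hC : 0 ≤ C) : 0 ≤ CU b C := by
  unfold CU
  positivity

/-- **`RowU` at one scale.** -/
theorem rowU_fix (hn : 2 ≤ n) (hβ : 1 ≤ β) (hκ : 0 < κ) (hκ1 : κ ≤ 1 / 200) (hτ : 0 < τ)
    (hr : 0 < r) (hrκ : r ≤ κ) (hW : W ⊆ Icc 0 1)
    (H : Adm N u (51 / 100) (1 + κ - r) (1 + κ) (1 + κ) q) (hSu : S * u ^ 2 ≤ 1 / 2)
    (h8 : 8 * u ≤ 1) (hA : Ap n β (51 / 100 * u) (4 * u) (8 * u ^ 3) A E) (hE : 0 < E)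
    (hP : PuUp n β CP u) (hApE : ApE n β κ τ u S E1 W)
    (hlo : ∀ w ∈ W, -C1 ≤ psiU n β κ τ u S (1 + κ) w)
    (hs3 : ∀ V : {p // p ∈ PI N} → ℝ, (∀ p, 0 ≤ V p) → ∑ p, V p ≤ k * u ^ 3 →
      S3H n N β u (51 / 100) (1 + κ - r) (1 + κ) (1 + κ) q S (τ / 2) (τ / 2) τ d V W)
    (hD0 : CP + (C1 + r * E1 + d) ≤ D0) (hCc : Cc = C4 β (51 / 100) (τ / 2) D0)
    (hD1 : 1 ≤ 51 / 100 * D0 * (n * u ^ 6)) (hn2 : 1 ≤ n * u ^ 2)
    (hR : 0 < R) (hRk : 10 * N * R ≤ k * u ^ 3) (hk1 : k ≤ 1)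
    (hδ : 0 < δ) (hδ1 : δ ≤ 1)
    (hδ2 : 5 * (Cc * u) ^ 2 / (N - 2) + 20 * (64 * E / (51 / 100 * u * n ^ 2 * R ^ 2)) /
      st N u (1 + κ) q ^ 2 ≤ (δ * u) ^ 2)
    (hθ1 : Cc * u ≤ 1) (hsm : 4 * (Cc * u) ^ 2 * (β ^ 2 + k * u ^ 3) ≤ 1 / 4)
    (ht : 0 < t) (ht1 : t ≤ 1) (hκθ : k * u ^ 3 + β ^ 2 / n ≤ Cc * u)
    (hα : 8 * β * (E / (n * u ^ 5)) * u ^ 2 ≤ 1) (hC0 : 8 * β * (E / (n * u ^ 5)) ≤ C0)
    (hε : 0 < ε) (hε1 : ε ≤ 1)
    (F1 : KV ^ 2 * (60 * (β ^ 2) ^ 3) * (δ * u * (Cc * u) ^ 2 + (Cc * u) ^ 4 + k * u ^ 3) +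
      16 * (k * u ^ 3) + 2 * eT n (Cc * u) (δ * u) (k * u ^ 3) (β ^ 2)
        (64 * E / (51 / 100 * u * n ^ 2 * R ^ 2)) (st N u (1 + κ) q) R t ((1 + κ) * u * q) ≤
      ε * u ^ 3)
    (F2 : (δ * u) ^ 2 ≤ ε * u ^ 2)
    (F3 : 6 * ((Cc * u) ^ 2 * (β ^ 2 * (τ / 2 * u ^ 2)) +
      2 * eT n (Cc * u) (δ * u) (k * u ^ 3) (β ^ 2)
        (64 * E / (51 / 100 * u * n ^ 2 * R ^ 2)) (st N u (1 + κ) q) R t ((1 + κ) * u * q) /
        (ε * u)) ≤ ε * u ^ 2)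
    (F4 : 48 * (k * u ^ 3) ≤ ε * u ^ 3)
    (F5 : 48 * ((Cc * u) ^ 2 * (β ^ 2 * (τ / 2 * u ^ 2)) +
      2 * eT n (Cc * u) (δ * u) (k * u ^ 3) (β ^ 2)
        (64 * E / (51 / 100 * u * n ^ 2 * R ^ 2)) (st N u (1 + κ) q) R t ((1 + κ) * u * q) /
        (ε * u)) < τ / 2 * u ^ 2)
    (hd1 : 2 * d ≤ d1)
    (hd2 : β ^ 2 * (KU (KV ^ 2 * (60 * (β ^ 2) ^ 3)) r * ε + 6 * (S * u ^ 2)) * r +
      β ^ 2 * ((1 + κ) * q * Cc ^ 2) ≤ r * d2)
    (hCn : CU β (KV ^ 2 * (60 * (β ^ 2) ^ 3)) ≤ C) :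
    RowU n β κ u S τ (τ / 2) r C0 C d1 d2 W := by
  have hn0 : 0 < n := by omega
  have hn' : (0 : ℝ) < n := by exact_mod_cast hn0
  have hβ0 : 0 < β := by linarith
  have hu := H.u0
  have hu2 : 0 < u ^ 2 := by positivity
  have hu3 : 0 < u ^ 3 := by positivity
  have hD : 0 < (n : ℝ) * u ^ 5 := by positivity
  have hK1 := KV_one
  have hPn : 0 ≤ KV ^ 2 * (60 * (β ^ 2) ^ 3) := by positivity
  have hCU := CU_nonneg (b := β) hβ0.le hPn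
  have hC2 : 2 ≤ Cc := by rw [hCc]; exact C4_two
  have hC44 : Cc ≤ Cc ^ 4 := by
    calc Cc = Cc ^ 1 := (pow_one Cc).symm
      _ ≤ Cc ^ 4 := pow_le_pow_right₀ (by linarith) (by norm_num)
  have hku : k * u ^ 3 ≤ u ^ 3 := mul_le_of_le_one_left hu3.le hk1
  have h4u : 4 * u ≤ 1 := by linarith
  have hB1 : 1 ≤ β ^ 2 := one_le_pow₀ hβ
  have hzu4 : (1 + κ) * u ≤ 4 * u := mul_le_mul_of_nonneg_right (by linarith) hu.le
  intro w hwW T hT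
  have hw0 := (hW hwW).1
  have hw1 := (hW hwW).2
  have hT0 : 0 < T := hτ.trans_le hT.1
  have hTu : T * u ^ 2 ≤ S * u ^ 2 := mul_le_mul_of_nonneg_right hT.2 hu2.le
  have hwu : w * u ^ 3 ≤ 1 * u ^ 3 := mul_le_mul_of_nonneg_right hw1 hu3.le
  have hsh : ∀ T ∈ Icc τ S, Shr u S T (τ / 2) (τ / 2) := fun T hT =>
    ⟨by linarith, hT.2, by linarith [hT.1], by linarith, by linarith⟩
  have h := hsh T hT
  -- the selection
  obtain ⟨V, hV, hg⟩ := selI (wa := 0) hn0 hβ0.le H h le_rfl hw0 hE hA hzu4 h4u hR (by linarith)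
  have hVR : ∀ p, R ≤ V p := fun p => by linarith [(hV p).1]
  have hVp : ∀ p, 0 < V p := fun p => hR.trans_le (hVR p)
  have hVs : ∑ p, V p ≤ k * u ^ 3 := by
    have h1 : ∑ p, V p ≤ ∑ _p : {p // p ∈ PI N}, 4 * R :=
      Finset.sum_le_sum fun p _ => (hV p).2.le
    rw [Finset.sum_const, Finset.card_univ, Fintype.card_coe, card_PI, nsmul_eq_mul] at h1
    push_cast at h1
    have h2 : 0 ≤ (N : ℝ) * R := by positivity
    linarith
  have hVs' : ∑ p, V p + (0 : ℝ) * u ^ 3 ≤ k * u ^ 3 := by linarith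
  have hS3 := hs3 V (fun p => (hVp p).le) hVs
  -- the local energy
  have hloc := (H437.dlocI hn0 hβ0 hu hκ (by linarith [mul_le_mul_of_nonneg_right hκ1 hu.le])
    (by linarith) (by linarith) hr.le hrκ hT hW hwW hApE hlo hP
    (c := 4) (by norm_num) (by norm_num) (fun p => (hVp p).le) (by linarith) hS3).1
  have hloc' : Pu n β (4 * u) (tv (2 * N + 5) (aI N u 0 w V)) ≤
      (skS n (2 * N + 5) (mI N u (51 / 100) (1 + κ - r) (1 + κ) (1 + κ) q)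
        (bI n N β u S T (τ / 2) (τ / 2)) (aI N u 0 w V)).fe + D0 * n * u ^ 5 := by
    refine hloc.trans ?_
    have : (CP + (C1 + r * E1 + d)) * n * u ^ 5 ≤ D0 * n * u ^ 5 := by
      rw [mul_assoc, mul_assoc]
      exact mul_le_mul_of_nonneg_right hD0 hD.le
    linarith
  -- the good levels
  have h2z : 2 * ((1 + κ) * u) ≤ 4 * u := by
    have := mul_le_mul_of_nonneg_right hκ1 hu.le
    linarith
  obtain ⟨l0, l1, hl0, hl1, G0, G1⟩ := goodI (κ := k * u ^ 3) (B0 := β ^ 2) hn hβ0 H h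
    le_rfl hw0 (by linarith) h2z h4u hVp hg hloc' hD1 hn2 hδ hδ1 (by rw [← hCc]; exact hδ2)
    hB1 le_rfl hVs' (by linarith) (by rw [← hCc]; exact hθ1) (by rw [← hCc]; exact hsm)
    hT0.le
  rw [← hCc] at G0 G1
  have h4 : (skS n (2 * N + 5) (mI N u (51 / 100) (1 + κ - r) (1 + κ) (1 + κ) q)
      (bI n N β u S T (τ / 2) (τ / 2)) (aI N u 0 w V)).pairEx (2 * N + 3)
      (fun x x' => Rov (fun x i => sp x i) x x' ^ 4) ≤ (Cc * u) ^ 4 := by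
    have h5 := fourI hn hβ0 H h (by linarith : 0 < τ / 2) h2z h4u hloc' hD1 hn2
      (l := 2 * N + 3) (by omega)
    rw [← hCc] at h5
    refine h5.trans ?_
    rw [mul_pow]
    exact mul_le_mul_of_nonneg_right hC44 (by positivity)
  -- the response
  obtain ⟨α, hαd⟩ : ∃ α, α = alB n N β u (51 / 100) (1 + κ - r) (1 + κ) (1 + κ) q S (τ / 2)
    (τ / 2) V T 0 w (2 * N + 4) := ⟨_, rfl⟩
  have hαge : -(8 * β * (E / (n * u ^ 5))) ≤ α := by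
    rw [hαd]
    refine alB_ge hn0 hβ0 H h le_rfl hw0 (fun p => (hVp p).le) hA hzu4 h4u ?_
    have : (0 + (w + 1)) * u ^ 3 = w * u ^ 3 + u ^ 3 := by ring
    rw [this]
    linarith
  have hαu : -1 ≤ α * u ^ 2 := by
    have := mul_le_mul_of_nonneg_right hαge hu2.le
    linarith
  have hvC : (1 + κ) * u ≤ Cc * u := mul_le_mul_of_nonneg_right (by linarith) hu.le
  have hvC2 : (1 + κ) * u ≤ 2 * (Cc * u) := by
    have : 0 ≤ Cc * u := by positivity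
    linarith
  -- the upper side
  have key := perI (ε := ε) hn0 hβ H h (by linarith) hT0.le (by linarith) (by linarith) ht ht1
    hR hVR hl0 hl1 G0 G1 h4 hvC hvC2 hκθ (by rw [← hαd]; exact hαu) hε hε1 F1 F2 F3 F4 F5
  rw [← hαd] at key
  have hTq := (Rl_le_four hn0 K0 H.em (by omega : 2 * N + 3 ≤ 2 * N + 5) (by positivity) h4).1
  have hth := thB_le (C := Cc) hn0 hβ0 H hTq
  have hfin := th_num (b := β) (A := max (α - T) 0) (P := α - T)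
    (Tt := Tq n (2 * N + 5) (mI N u (51 / 100) (1 + κ - r) (1 + κ) (1 + κ) q)
      (bI n N β u S T (τ / 2) (τ / 2)) (aI N u 0 w V) 2 / u ^ 2)
    (Cn := CU β (KV ^ 2 * (60 * (β ^ 2) ^ 3))) (v := 1 + κ) (a := 1 + κ - r) (C := Cc) (q := q)
    (k := KU (KV ^ 2 * (60 * (β ^ 2) ^ 3)) r) (ε := ε) (T' := T * u ^ 2) (d2 := d2) hβ
    (by linarith) (by linarith) hCU rfl (by positivity) (by
      have e1 : (1 + κ) - (1 + κ - r) = r := by ring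
      rw [e1] at key ⊢
      exact key) (by
      have e1 : (1 + κ) - (1 + κ - r) = r := by ring
      rw [e1]
      have h5 : β ^ 2 * (KU (KV ^ 2 * (60 * (β ^ 2) ^ 3)) r * ε + 6 * (T * u ^ 2)) * r ≤
          β ^ 2 * (KU (KV ^ 2 * (60 * (β ^ 2) ^ 3)) r * ε + 6 * (S * u ^ 2)) * r :=
        mul_le_mul_of_nonneg_right (mul_le_mul_of_nonneg_left (add_le_add le_rfl
          (mul_le_mul_of_nonneg_left hTu (by norm_num))) (sq_nonneg β)) hr.le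
      exact (add_le_add h5 le_rfl).trans hd2)
  obtain ⟨k1, k2⟩ := rowU_of hn0 hβ0 hW H hsh hS3 hT hwW (α := α)
    (θ := thB n N β u (51 / 100) (1 + κ - r) (1 + κ) (1 + κ) q S (τ / 2) (τ / 2) V T 0 w)
    hαd.symm rfl
  refine ⟨_, α, (neg_le_neg hC0).trans hαge, fun w' hw' => (k1 w' hw').trans ?_,
    fun T' hT' => (k2 T' hT').trans ?_, hth.trans (hfin.trans ?_)⟩
  · exact add_le_add le_rfl hd1
  · exact add_le_add le_rfl hd1
  · have e1 : (1 + κ) - (1 + κ - r) = r := by ring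
    rw [e1]
    refine mul_le_mul_of_nonneg_left ?_ (by positivity)
    have m1 : max (α - T) 0 ≤ max α 0 := max_le_max (by linarith) le_rfl
    have m2 : 0 ≤ max (α - T) 0 := le_max_right _ _
    have m3 : CU β (KV ^ 2 * (60 * (β ^ 2) ^ 3)) * max (α - T) 0 ≤ C * max α 0 :=
      mul_le_mul hCn m1 m2 (hCU.trans hCn)
    exact add_le_add (mul_le_mul_of_nonneg_right (add_le_add le_rfl m3) (sq_nonneg _)) le_rfl

end Vale.Agent.P146.H393.In
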