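import Vale.Agent.P146.H393.InI
import Vale.Agent.P146.H645x.Cst
import Vale.Agent.P146.H877x.PerN
import Vale.Agent.P146.H985.S3I
import Vale.Agent.P146.H985.S3g
import Vale.Agent.P146.H437.CrsA
import Vale.Agent.P146.H479.ApBx
import Vale.Agent.P146.H437.DlocN
import Vale.Agent.P146.H444.GlueU

/-!
# P146: `RowUBox` (helper393)
-/

open MeasureTheory ProbabilityTheory Set

namespace Vale.Agent.P146.H393.In

open Vale.Agent.P157 Vale.Agent.P157.Lv Vale.Agent.P157.Lv.Sy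
open Vale.Agent.P146.H425 Vale.Agent.P146.H325 Vale.Agent.P146.H985 Vale.Agent.P146.U
open Vale.Agent.P146.H93 (Cd skS Em linS_sk)
open Vale.Agent.P146.H93.Pnum (CU KU)
open Vale.Agent.P146.H758 (tv Ex2 Ap Pu)
open Vale.Agent.P146.H437 (psiN RowU RowF ApE PuUp)
open Vale.Agent.P146.H877x (Gd Hz eT KV KV_one)
open Vale.Agent.P146.H560 (psiU)
open Vale.Agent.P146.H985.S3 (Gc)
open Vale.Agent.P146.R1

set_option linter.unusedSectionVars false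

/-- the size of `B u²` -/
lemma num_pow {n : ℕ} {u B γ c : ℝ} (hn : 1 ≤ n) (hu : 0 < u)
    (hu1 : u ≤ (n : ℝ) ^ (-(11 / 100) : ℝ)) (hB : 0 ≤ B) (hc : 0 ≤ c)
    (hγ : γ * (c + 1) ^ 8 ≤ 1) (h : (B + 1) ^ 8 ≤ γ * (n * u ^ 6)) :
    c * (B + 1) * u ^ 2 ≤ 1 := by
  have hn1 : (1 : ℝ) ≤ n := by exact_mod_cast hn
  have hn0 : (0 : ℝ) < n := by linarith
  have h1 : u ^ 10 ≤ (n : ℝ)⁻¹ := by
    calc u ^ 10 ≤ ((n : ℝ) ^ (-(11 / 100) : ℝ)) ^ 10 := pow_le_pow_left₀ hu.le hu1 10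
      _ = (n : ℝ) ^ (-(11 / 10) : ℝ) := by
          rw [← Real.rpow_natCast, ← Real.rpow_mul hn0.le]
          norm_num
      _ ≤ (n : ℝ) ^ (-1 : ℝ) := Real.rpow_le_rpow_of_exponent_le hn1 (by norm_num)
      _ = _ := Real.rpow_neg_one _
  have h2 : n * u ^ 10 ≤ 1 := by
    calc n * u ^ 10 ≤ n * (n : ℝ)⁻¹ := mul_le_mul_of_nonneg_left h1 hn0.le
      _ = 1 := mul_inv_cancel₀ hn0.ne'
  have hu1' : u ≤ 1 :=
    hu1.trans (Real.rpow_le_one_of_one_le_of_nonpos hn1 (by norm_num))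
  have h3 : u ^ 12 ≤ 1 := pow_le_one₀ hu.le hu1'
  have h4 : (c * (B + 1) * u ^ 2) ^ 8 ≤ 1 := by
    calc (c * (B + 1) * u ^ 2) ^ 8 ≤ ((c + 1) * (B + 1) * u ^ 2) ^ 8 := by
          refine pow_le_pow_left₀ (by positivity) ?_ 8
          exact mul_le_mul_of_nonneg_right (mul_le_mul_of_nonneg_right (by linarith)
            (by linarith)) (sq_nonneg u)
      _ = (c + 1) ^ 8 * u ^ 16 * (B + 1) ^ 8 := by ring
      _ ≤ (c + 1) ^ 8 * u ^ 16 * (γ * (n * u ^ 6)) := mul_le_mul_of_nonneg_left h (by positivity)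
      _ = (γ * (c + 1) ^ 8) * (n * u ^ 10) * u ^ 12 := by ring
      _ ≤ 1 * 1 * 1 := by
          refine mul_le_mul (mul_le_mul hγ h2 (by positivity) zero_le_one) h3 (by positivity)
            (by norm_num)
      _ = 1 := by norm_num
  exact (pow_le_one_iff_of_nonneg (by positivity) (by norm_num)).1 h4

lemma S3H.mono {n N : ℕ} {β u y a v z q S T1 e τ d d' : ℝ} {V : {p // p ∈ PI N} → ℝ}
    {W : Set ℝ} (h : S3H n N β u y a v z q S T1 e τ d V W) (hd : d ≤ d') :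
    S3H n N β u y a v z q S T1 e τ d' V W := fun T hT w hw =>
  ⟨(h T hT w hw).1.trans hd, (h T hT w hw).2.trans hd⟩

lemma KU_nonneg {C g : ℝ} (hC : 0 ≤ C) (hg : 0 < g) : 0 ≤ KU C g := by
  unfold KU
  positivity

lemma le_of_le_div_add {a b x : ℝ} (ha : 0 ≤ a) (hx : 0 ≤ x) (h : x ≤ b / (a + 1)) :
    a * x ≤ b := H645x.mul_le_of_le_div_add ha hx h

/-- the sum of the smallness conditions -/
lemma num_F {P Cc δ u k x ε : ℝ} (hδ : δ * (P * Cc ^ 2) ≤ ε / 4)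
    (hu : 8 * P * Cc ^ 4 / ε * u ≤ 1) (hk : k * (P + 16) ≤ ε / 8) (hε : 0 < ε)
    (hx : x ≤ ε / 8) :
    P * (δ * Cc ^ 2 + Cc ^ 4 * u + k) + 16 * k + 2 * x ≤ ε := by
  have h1 : P * (Cc ^ 4 * u) ≤ ε / 8 := by
    have h2 := mul_le_mul_of_nonneg_left hu hε.le
    have e : ε * (8 * P * Cc ^ 4 / ε * u) = 8 * (P * (Cc ^ 4 * u)) := by
      field_simp
    rw [e] at h2
    linarith
  linarith

/-- **S3 for all the bundles at one scale.** -/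
lemma s3_all {n N : ℕ} {β κ u q S τ r E0 c1 εg CP C1 E1 k : ℝ} {A : ℝ} {W : Set ℝ}
    (hn : 2 ≤ n) (hβ : 0 < β) (hκ : 0 < κ) (hκ1 : κ ≤ 1 / 200) (hτ : 0 < τ)
    (hr : 0 < r) (hrκ : r ≤ κ) (hW : W ⊆ Icc 0 1)
    (H : Adm N u (51 / 100) (1 + κ - r) (1 + κ) (1 + κ) q) (hSu : S * u ^ 2 ≤ 1)
    (h8 : 8 * u ≤ 1)
    (hA : Ap n β (u / 2) (4 * u) (8 * u ^ 3) A (E0 * (n * u ^ 5))) (hE0 : 0 ≤ E0)
    (hE1 : 1 ≤ 4 * E0 * (n * u ^ 6)) (hn2 : 1 ≤ n * u ^ 2)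
    (hP : PuUp n β CP u) (hApE : ApE n β κ τ u S E1 W)
    (hlo : ∀ w ∈ W, -C1 ≤ psiU n β κ τ u S (1 + κ) w)
    (hG : Gc n β (4 * S) εg c1 (51 / 100 * u)) (hc1 : 0 ≤ c1) (hk1 : k ≤ 1)
    (hkε : 8 * k ≤ εg) (V : {p // p ∈ PI N} → ℝ) (hV : ∀ p, 0 ≤ V p)
    (hVk : ∑ p, V p ≤ k * u ^ 3) :
    S3H n N β u (51 / 100) (1 + κ - r) (1 + κ) (1 + κ) q S (τ / 2) (τ / 2) τ
      (c1 + k * (5 + 320 * E0 / (β ^ 2 * (τ / 2)) + 2 * E0) +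
        q * (CP + (C1 + r * E1))) V W := by
  have hn0 : 0 < n := by omega
  have hu := H.u0
  have hu3 : 0 < u ^ 3 := by positivity
  have h2u : (1 + (1 + κ)) * u ≤ 1 := by
    have := mul_le_mul_of_nonneg_right hκ1 hu.le
    linarith
  refine H985.S3.s3H hn hβ H (by linarith) (by linarith) (by linarith) hSu (by linarith) hA
    (by positivity) (by linarith) le_rfl (by linarith) hE0 hE1 hn2 hG hc1 hV hVk hk1 hkε
    (by linarith) hW ?_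
  intro T hT w hw
  have hw0 := (hW hw).1
  have hw1 := (hW hw).2
  obtain ⟨k1, k2⟩ := H437.psiN_ge (T1 := τ / 2) hn0 hβ hu hκ h2u (by linarith) (by linarith)
    hr.le hrκ hT hw0 (hApE w hw) (hlo w hw)
  constructor
  · exact H437.rayN hn0 hβ hu hSu (by linarith) (by linarith [hT.1]) hT.2 (by linarith)
      (by linarith) le_rfl (by linarith) zero_le_one (by linarith) h8 le_rfl hw0 (by linarith)
      hP k1
  · exact H437.rayN hn0 hβ hu hSu (by linarith) (by linarith [hT.1]) hT.2 (by linarith)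
      (by linarith) le_rfl (by linarith) zero_le_one (by linarith) h8 hw0 le_rfl (by linarith)
      hP k2

/-- the error of S3 -/
lemma num_k {ε1 B CE Z d c : ℝ} (hB : 0 ≤ B) (he0 : 0 ≤ ε1)
    (hZ : Z = 5 + (320 / c + 2) * CE) (hd : ε1 * Z ≤ d / 4) :
    ε1 / (B + 1) * (5 + 320 * (CE * (B + 1)) / c + 2 * (CE * (B + 1))) ≤ d / 4 := by
  have hB1 : 0 < B + 1 := by linarith
  have e1 : ε1 / (B + 1) * (5 + 320 * (CE * (B + 1)) / c + 2 * (CE * (B + 1))) =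
      5 * (ε1 / (B + 1)) + ε1 * ((320 / c + 2) * CE) := by
    field_simp
    ring
  rw [e1]
  have h1 : ε1 / (B + 1) ≤ ε1 := div_le_self he0 (by linarith)
  rw [hZ] at hd
  linarith

/-- the lower bound of the scale -/
lemma num_u {n : ℕ} {u B γ Kg : ℝ} (hn : 0 < n) (hu : 0 < u) (hK : 1 ≤ Kg) (hB : 0 ≤ B)
    (hγ : γ ≤ 1 / (64 * Kg ^ 6)) (h : (B + 1) ^ 8 ≤ γ * (n * u ^ 6)) :
    Kg * (n : ℝ) ^ (-(1 / 6) : ℝ) ≤ u ∧ 2 * (n : ℝ) ^ (-(1 / 6) : ℝ) ≤ u ∧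
      (n : ℝ) ^ (-(1 / 6) : ℝ) ≤ u ∧ 1 ≤ n * u ^ 6 := by
  have hn' : (0 : ℝ) < n := by exact_mod_cast hn
  have hx : 0 < (n : ℝ) * u ^ 6 := by positivity
  have h1 : (1 : ℝ) ≤ (B + 1) ^ 8 := one_le_pow₀ (by linarith)
  have h2 : 1 ≤ 1 / (64 * Kg ^ 6) * (n * u ^ 6) :=
    h1.trans (h.trans (mul_le_mul_of_nonneg_right hγ hx.le))
  have hK6 : 1 ≤ Kg ^ 6 := one_le_pow₀ hK
  have h3 : 1 ≤ n * (u / (2 * Kg)) ^ 6 := by
    refine h2.trans (le_of_eq ?_)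
    field_simp
    norm_num
  have h4 := H479.u_ge hn (u := u / (2 * Kg)) (by positivity) h3
  have hp : 0 < (n : ℝ) ^ (-(1 / 6) : ℝ) := Real.rpow_pos_of_pos hn' _
  rw [le_div_iff₀ (by positivity)] at h4
  have h5 : (n : ℝ) ^ (-(1 / 6) : ℝ) * 1 ≤ (n : ℝ) ^ (-(1 / 6) : ℝ) * Kg :=
    mul_le_mul_of_nonneg_left hK hp.le
  refine ⟨by linarith, by linarith, by linarith, ?_⟩
  have h6 : 1 / (64 * Kg ^ 6) ≤ 1 := by
    rw [div_le_one (by positivity)]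
    linarith
  have := mul_le_mul_of_nonneg_right h6 hx.le
  linarith

/-- `κ + B0 / n ≤ θ` -/
lemma num_θ {n : ℕ} {u γ k Cc b : ℝ} (hn : 0 < n) (hu : 0 < u) (hu1 : u ≤ 1) (hk : k ≤ 1)
    (hC : 2 ≤ Cc) (h1 : 1 ≤ γ * (n * u ^ 6)) (hb : 0 ≤ b) (h2 : γ * b ≤ 1) :
    k * u ^ 3 + b / n ≤ Cc * u := by
  have hn' : (0 : ℝ) < n := by exact_mod_cast hn
  have h3 : b ≤ u * n := by
    calc b = b * 1 := (mul_one b).symm
      _ ≤ b * (γ * (n * u ^ 6)) := mul_le_mul_of_nonneg_left h1 hb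
      _ = (γ * b) * (n * u ^ 6) := by ring
      _ ≤ 1 * (n * u ^ 6) := mul_le_mul_of_nonneg_right h2 (by positivity)
      _ = n * u * u ^ 5 := by ring
      _ ≤ n * u * 1 := mul_le_mul_of_nonneg_left (pow_le_one₀ hu.le hu1) (by positivity)
      _ = u * n := by ring
  have h4 : b / n ≤ u := by
    rw [div_le_iff₀ hn']
    exact h3
  have h5 : k * u ^ 3 ≤ u := by
    calc k * u ^ 3 ≤ 1 * u ^ 3 := mul_le_mul_of_nonneg_right hk (by positivity)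
      _ = u * u ^ 2 := by ring
      _ ≤ u * 1 := mul_le_mul_of_nonneg_left (pow_le_one₀ hu.le hu1) hu.le
      _ = u := mul_one u
  have h6 : 2 * u ≤ Cc * u := mul_le_mul_of_nonneg_right hC hu.le
  linarith

/-- the last error of the row -/
lemma num_d2 {b k0 ε S u r d2 κ q Cc : ℝ} (hr : 0 < r) (hd2 : 0 < d2)
    (h1 : b ^ 2 * k0 * ε ≤ d2 / 4) (h2 : 24 * b ^ 2 * S / d2 * u ^ 2 ≤ 1)
    (h3 : b ^ 2 * ((1 + κ) * Cc ^ 2) * q ≤ r * d2 / 4) :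
    b ^ 2 * (k0 * ε + 6 * (S * u ^ 2)) * r + b ^ 2 * ((1 + κ) * q * Cc ^ 2) ≤ r * d2 := by
  have h4 : b ^ 2 * (6 * (S * u ^ 2)) ≤ d2 / 4 := by
    have := mul_le_mul_of_nonneg_right h2 hd2.le
    have e : 24 * b ^ 2 * S / d2 * u ^ 2 * d2 = 4 * (b ^ 2 * (6 * (S * u ^ 2))) := by
      field_simp
      ring
    rw [e] at this
    linarith
  have h5 := mul_le_mul_of_nonneg_right (add_le_add h1 h4) hr.le
  have e1 : b ^ 2 * (k0 * ε + 6 * (S * u ^ 2)) * r =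
      (b ^ 2 * k0 * ε + b ^ 2 * (6 * (S * u ^ 2))) * r := by ring
  have e2 : b ^ 2 * ((1 + κ) * q * Cc ^ 2) = b ^ 2 * ((1 + κ) * Cc ^ 2) * q := by ring
  rw [e1, e2]
  have := mul_pos hr hd2
  linarith

/-- the conditions on the scale from one number -/
lemma num_M {Mb S u0 Cc β ε P d2 u : ℝ} (hS : 0 ≤ S) (hu0 : 0 < u0) (hε : 0 < ε) (hP : 0 ≤ P)
    (hd2 : 0 < d2) (hu : 0 < u)
    (hMb : Mb = 8 + 2 * S + 1 / u0 + 200 * Cc ^ 2 * β ^ 2 / ε +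
      8 * P * Cc ^ 4 / ε + 24 * β ^ 2 * S / d2) (h1 : Mb * u ≤ 1) (h2 : Mb * u ^ 2 ≤ 1) :
    8 * u ≤ 1 ∧ 2 * S * u ^ 2 ≤ 1 ∧ u ≤ u0 ∧ Cc ^ 2 * β ^ 2 * u ^ 2 ≤ ε / 200 ∧
      8 * P * Cc ^ 4 / ε * u ≤ 1 ∧ 24 * β ^ 2 * S / d2 * u ^ 2 ≤ 1 := by
  have hu2 : 0 < u ^ 2 := by positivity
  have z1 : 0 ≤ 1 / u0 := by positivity
  have z2 : 0 ≤ 200 * Cc ^ 2 * β ^ 2 / ε := by positivity
  have z3 : 0 ≤ 8 * P * Cc ^ 4 / ε := by positivity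
  have z4 : 0 ≤ 24 * β ^ 2 * S / d2 := by positivity
  have y3 : 1 / u0 * u ≤ 1 := (mul_le_mul_of_nonneg_right (by linarith) hu.le).trans h1
  have y4 : 200 * Cc ^ 2 * β ^ 2 / ε * u ^ 2 ≤ 1 :=
    (mul_le_mul_of_nonneg_right (by linarith) hu2.le).trans h2
  refine ⟨(mul_le_mul_of_nonneg_right (by linarith) hu.le).trans h1,
    (mul_le_mul_of_nonneg_right (by linarith) hu2.le).trans h2, ?_, ?_,
    (mul_le_mul_of_nonneg_right (by linarith) hu.le).trans h1,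
    (mul_le_mul_of_nonneg_right (by linarith) hu2.le).trans h2⟩
  · rw [one_div, inv_mul_le_iff₀ hu0, mul_one] at y3
    exact y3
  · have := mul_le_mul_of_nonneg_right y4 hε.le
    have e : 200 * Cc ^ 2 * β ^ 2 / ε * u ^ 2 * ε = 200 * (Cc ^ 2 * β ^ 2 * u ^ 2) := by
      field_simp
    rw [e] at this
    linarith

/-- the constants of the rows -/
structure NumU (β κ S τ C1 d2 r d1 CE CP EU P Cc D0 k0 ε x δ t q d εg Kg Z ε1 γ : ℝ) : Prop where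
  β1 : 1 < β
  κ0 : 0 < κ
  κ1 : κ ≤ 1 / 200
  S1 : 1 ≤ S
  τ0 : 0 < τ
  τ1 : τ ≤ 1
  d20 : 0 < d2
  r0 : 0 < r
  rκ : r ≤ κ
  CE0 : 0 < CE
  P0 : 0 ≤ P
  C2 : 2 ≤ Cc
  D0r : CP + (C1 + r * (EU + C1)) ≤ D0 - 1
  ε0 : 0 < ε
  ε1' : ε ≤ 1
  εd : β ^ 2 * k0 * ε ≤ d2 / 4
  x1 : x ≤ ε ^ 2 * (τ / 2) / 400
  x2 : x ≤ ε / 8
  δ0 : 0 < δ
  δ1 : δ ≤ 1
  δε : δ ^ 2 ≤ ε
  δP : δ * (P * Cc ^ 2) ≤ ε / 4
  t0 : 0 < t
  t1 : t ≤ 1
  q0 : 0 < q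
  q2 : q ≤ 1 / 2
  q3 : (1 + κ) * q ≤ r
  q4 : β ^ 2 * ((1 + κ) * Cc ^ 2) * q ≤ r * d2 / 4
  q5 : D0 * q ≤ d / 4
  d0 : 0 < d
  d1' : d ≤ 1
  dd : 2 * d ≤ d1
  Kg1 : 1 ≤ Kg
  Zd : Z = 5 + (320 / (β ^ 2 * (τ / 2)) + 2) * CE
  e0 : 0 < ε1
  e1 : ε1 ≤ 1
  e2 : ε1 ≤ εg / 8
  e3 : ε1 * (P + 16) ≤ ε / 8
  e4 : ε1 ≤ ε / 48
  e5 : ε1 * Z ≤ d / 4
  γ0 : 0 < γ
  γ2 : γ ≤ 1 / (64 * Kg ^ 6)
  γ3 : γ * (8 * β * CE + 1) ^ 8 ≤ 1
  γ4 : γ ≤ 51 / 100 * D0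
  γ5 : γ * β ^ 2 ≤ 1
  γ6 : γ ≤ 4 * CE

/-- **The row at one scale.** -/
theorem rowU_scale {n N : ℕ} {β κ S τ C1 d2 r d1 CE CP EU P Cc D0 k0 ε x δ t q d εg Kg Z ε1 γ u B
    R E : ℝ} {W : Set ℝ}
    (Q : NumU β κ S τ C1 d2 r d1 CE CP EU P Cc D0 k0 ε x δ t q d εg Kg Z ε1 γ)
    (hP : P = KV ^ 2 * (60 * (β ^ 2) ^ 3)) (hk0 : k0 = KU P r)
    (hCc : Cc = C4 β (51 / 100) (τ / 2) D0) (hN3 : 3 ≤ N) (hn2 : 2 ≤ n) (hu : 0 < u)
    (hu1 : u ≤ (n : ℝ) ^ (-(11 / 100) : ℝ)) (hB : 0 ≤ B) (hBB : (B + 1) ^ 8 ≤ γ * (n * u ^ 6))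
    (hu_1 : u ≤ 1) (hl4 : 1 ≤ n * u ^ 6) (y1 : 8 * u ≤ 1) (y2 : 2 * S * u ^ 2 ≤ 1)
    (y4 : Cc ^ 2 * β ^ 2 * u ^ 2 ≤ ε / 200) (y5 : 8 * P * Cc ^ 4 / ε * u ≤ 1)
    (y6 : 24 * β ^ 2 * S / d2 * u ^ 2 ≤ 1)
    (hR : 0 < R) (hRN : 10 * N * R * (B + 1) = ε1 * u ^ 3) (hCu : Cc * u ≤ 1)
    (hsm : 4 * (Cc * u) ^ 2 * (β ^ 2 + 3 * u ^ 3) ≤ 1 / 4)
    (hE : E = CE * (B + 1) * (n * u ^ 5))
    (g2 : 5 * (Cc * u) ^ 2 / (N - 2) + 20 * (64 * E / (51 / 100 * u * n ^ 2 * R ^ 2)) /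
      st N u (1 + κ) q ^ 2 ≤ (δ * u) ^ 2)
    (g3 : ∀ κ' : ℝ, κ' ≤ 3 * u ^ 3 → eT n (Cc * u) (δ * u) κ' (β ^ 2)
      (64 * E / (51 / 100 * u * n ^ 2 * R ^ 2)) (st N u (1 + κ) q) R t ((1 + κ) * u * q) ≤
      x * u ^ 3)
    (hAx : Ap n β (51 / 100 * u) (4 * u) (8 * u ^ 3) (P1 n β (51 / 100 * u)) E)
    (hAy : Ap n β (u / 2) (4 * u) (8 * u ^ 3) (P1 n β (u / 2)) (CE * (B + 1) * (n * u ^ 5)))
    (hPU : PuUp n β CP u) (hAE : ApE n β κ τ u S (EU + C1) W)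
    (hGx : Gc n β (4 * S) εg (d / 4) (51 / 100 * u)) (hW : W ⊆ Icc 0 1)
    (hWC : ∀ w ∈ W, -C1 ≤ psiU n β κ τ u S (1 + κ) w) :
    RowU n β κ u S τ (τ / 2) r ((1 + CU β P + 8 * β * CE) * (B + 1)) (1 + CU β P + 8 * β * CE)
      d1 d2 W := by
  have hn0 : 0 < n := by omega
  have hn' : (0 : ℝ) < n := by exact_mod_cast hn0
  have hβ0 : 0 < β := zero_lt_one.trans Q.β1
  have hCU := CU_nonneg (b := β) hβ0.le Q.P0
  have hCE := Q.CE0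
  have h8CE : 0 ≤ 8 * β * CE := by positivity
  have hx0' : 0 < (n : ℝ) * u ^ 6 := by positivity
  have hu2 : 0 < u ^ 2 := by positivity
  have hu3 : 0 < u ^ 3 := by positivity
  have hg1 : 1 ≤ γ * (n * u ^ 6) := (one_le_pow₀ (by linarith)).trans hBB
  have hD : 0 < (n : ℝ) * u ^ 5 := by positivity
  have hB1 : 0 < B + 1 := by linarith
  have hE0 : 0 < E := by rw [hE]; positivity
  have he0 := Q.e0
  obtain ⟨k, hk⟩ : ∃ k, k = ε1 / (B + 1) := ⟨_, rfl⟩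
  have hkε : k ≤ ε1 := by rw [hk]; exact div_le_self he0.le (by linarith)
  have hkR : 10 * N * R ≤ k * u ^ 3 := by
    have : k * u ^ 3 = 10 * N * R := by
      rw [hk, div_mul_eq_mul_div, div_eq_iff hB1.ne']
      exact hRN.symm
    rw [this]
  have hk1 : k ≤ 1 := hkε.trans Q.e1
  have hku : k * u ^ 3 ≤ 1 * u ^ 3 := mul_le_mul_of_nonneg_right hk1 hu3.le
  have hP0 := Q.P0
  have hkP : k * (P + 16) ≤ ε / 8 :=
    (mul_le_mul_of_nonneg_right hkε (by linarith)).trans Q.e3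
  have hn_u2 : 1 ≤ n * u ^ 2 := by
    refine hl4.trans (mul_le_mul_of_nonneg_left ?_ hn'.le)
    have : u ^ 6 = u ^ 2 * u ^ 4 := by ring
    rw [this]
    exact mul_le_of_le_one_right hu2.le (pow_le_one₀ hu.le hu_1)
  have hAdm : Adm N u (51 / 100) (1 + κ - r) (1 + κ) (1 + κ) q :=
    { N3 := hN3
      u0 := hu
      y0 := by norm_num
      ya := by linarith [Q.rκ]
      av := by linarith [Q.q3]
      vz := le_rfl
      zu := by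
        have := mul_le_mul_of_nonneg_right Q.κ1 hu.le
        linarith
      q0 := Q.q0
      q1 := Q.q2 }
  have hEn : E / (n * u ^ 5) = CE * (B + 1) := by
    rw [hE]
    field_simp
  have hpow := num_pow (c := 8 * β * CE) (by omega) hu hu1 hB h8CE Q.γ3 hBB
  have hT' := g3 (k * u ^ 3) (hku.trans (mul_le_mul_of_nonneg_right (by norm_num) hu3.le))
  have hθ := num_θ hn0 hu hu_1 hk1 Q.C2 hg1 (sq_nonneg β) Q.γ5
  have hSu1 : S * u ^ 2 ≤ 1 / 2 := by linarith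
  obtain ⟨F3, F5⟩ := H877x.E35 (β := β) (θ := Cc * u) hu (half_pos Q.τ0)
    (by linarith [Q.τ1]) Q.ε0 Q.ε1' rfl y4 hT' Q.x1
  obtain ⟨F1, F2, F4⟩ := H877x.E124 (θ := Cc * u) (D := δ * u) hu hP0 rfl rfl le_rfl hT'
    (num_F Q.δP y5 hkP Q.ε0 Q.x2) Q.δε (by linarith [Q.e4])
  refine rowU_fix (N := N) (q := q) (A := P1 n β (51 / 100 * u)) (E := E) (CP := CP)
    (D0 := D0) (Cc := Cc) (E1 := EU + C1) (k := k) (δ := δ) (t := t) (ε := ε) (R := R)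
    (C1 := C1) (d := d) hn2 Q.β1.le Q.κ0 Q.κ1 Q.τ0 Q.r0 Q.rκ hW hAdm hSu1 y1
    hAx hE0 hPU hAE hWC ?_ (by linarith [Q.D0r, Q.d1']) hCc ?_ hn_u2 hR hkR hk1 Q.δ0 Q.δ1
    g2 hCu ?_ Q.t0 Q.t1 hθ ?_ ?_ Q.ε0 Q.ε1' (by rw [← hP]; exact F1) F2 F3 F4 F5 Q.dd ?_ ?_
  · intro V hV hVk
    refine S3H.mono (s3_all hn2 hβ0 Q.κ0 Q.κ1 Q.τ0 Q.r0 Q.rκ hW hAdm
      (hSu1.trans (by norm_num)) y1 hAy
      (by positivity) ?_ hn_u2 hPU hAE hWC hGx (by linarith [Q.d0]) hk1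
      (by linarith [Q.e2]) V hV hVk) ?_
    · have h3 : 1 * (n * u ^ 6) ≤ (B + 1) * (n * u ^ 6) :=
        mul_le_mul_of_nonneg_right (by linarith) hx0'.le
      have h4 : γ * (n * u ^ 6) ≤ 4 * CE * (n * u ^ 6) :=
        mul_le_mul_of_nonneg_right Q.γ6 hx0'.le
      have h5 : 4 * CE * (1 * (n * u ^ 6)) ≤ 4 * CE * ((B + 1) * (n * u ^ 6)) :=
        mul_le_mul_of_nonneg_left h3 (by positivity)
      clear g2 g3 F1 F2 F3 F4 F5 hAx hAy hT' hsm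
      linarith
    · have h3 := num_k (c := β ^ 2 * (τ / 2)) hB he0.le Q.Zd Q.e5
      rw [← hk] at h3
      have h4 : q * (CP + (C1 + r * (EU + C1))) ≤ q * D0 :=
        mul_le_mul_of_nonneg_left (by linarith [Q.D0r]) Q.q0.le
      have h5 := Q.q5
      have h6 := Q.d0
      clear g2 g3 F1 F2 F3 F4 F5 hAx hAy hT' hsm
      linarith
  · have h4 : γ * (n * u ^ 6) ≤ 51 / 100 * D0 * (n * u ^ 6) :=
      mul_le_mul_of_nonneg_right Q.γ4 hx0'.le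
    exact hg1.trans h4
  · refine le_trans ?_ hsm
    refine mul_le_mul_of_nonneg_left ?_ (by positivity)
    exact add_le_add le_rfl (hku.trans (mul_le_mul_of_nonneg_right (by norm_num) hu3.le))
  · rw [hEn]
    refine le_trans (le_of_eq ?_) hpow
    ring
  · rw [hEn]
    have h7 : 0 ≤ (1 + CU β P) * (B + 1) := by positivity
    have e1 : (1 + CU β P + 8 * β * CE) * (B + 1) =
        (1 + CU β P) * (B + 1) + 8 * β * (CE * (B + 1)) := by ring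
    rw [e1]
    exact le_add_of_nonneg_left h7
  · rw [← hP, ← hk0]
    exact num_d2 Q.r0 Q.d20 Q.εd y6 Q.q4
  · rw [← hP]
    clear g2 g3 F1 F2 F3 F4 F5 hAx hAy hT' hsm
    linarith

/-- **The rows of `RowUBox`.** -/
theorem rowUBox {β : ℝ} (hβ : 1 < β) (h2 : Ex2Out β) (hL : LStar β) : H444.RowUBox β := by
  have hβ0 : 0 < β := by linarith
  have hG := H97.cg hβ0 h2 hL
  obtain ⟨CE, n1, hCE, hn1, hApx⟩ := H437.apX hβ0 h2 hL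
  obtain ⟨CP, n2, hCP, hn2, hPu⟩ := H437.puUp hβ0 h2 hL hG
  obtain ⟨EU, hEU, hUp⟩ := H437.upE hβ0 h2 hL hG
  have hK1 := KV_one
  obtain ⟨P, hP⟩ : ∃ P, P = KV ^ 2 * (60 * (β ^ 2) ^ 3) := ⟨_, rfl⟩
  obtain ⟨M, hM⟩ : ∃ M, M = KV ^ 2 * (1000000000000 * (β ^ 2) ^ 5) := ⟨_, rfl⟩
  have hP0 : 0 ≤ P := by rw [hP]; positivity
  have hM0 : 0 ≤ M := by rw [hM]; positivity
  have hCU := CU_nonneg (b := β) hβ0.le hP0
  have h8CE : 0 ≤ 8 * β * CE := by positivity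
  refine ⟨1 + CU β P + 8 * β * CE, by linarith, fun κ hκ hκ1 => ⟨1, fun S hS =>
    ⟨1, one_pos, fun τ hτ hτ1 C1 d2 hC1 hd2 => ⟨1, one_pos, fun r hr _ hrκ d1 hd1 => ?_⟩⟩⟩⟩
  -- the numbers
  obtain ⟨d, hd⟩ : ∃ d, d = min 1 (d1 / 2) := ⟨_, rfl⟩
  have hd0 : 0 < d := by rw [hd]; positivity
  have hd_1 : d ≤ 1 := by rw [hd]; exact min_le_left _ _
  have hd_2 : 2 * d ≤ d1 := by
    have : d ≤ d1 / 2 := by rw [hd]; exact min_le_right _ _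
    linarith
  obtain ⟨D0, hD0⟩ : ∃ D0, D0 = CP + (C1 + (EU + C1) + 1) := ⟨_, rfl⟩
  have hD00 : 0 < D0 := by rw [hD0]; positivity
  have hr1 : r ≤ 1 := by linarith
  have hD0r : CP + (C1 + r * (EU + C1)) ≤ D0 - 1 := by
    have : r * (EU + C1) ≤ 1 * (EU + C1) := mul_le_mul_of_nonneg_right hr1 (by positivity)
    rw [hD0]
    linarith
  obtain ⟨Cc, hCc⟩ : ∃ Cc, Cc = C4 β (51 / 100) (τ / 2) D0 := ⟨_, rfl⟩
  have hC2 : 2 ≤ Cc := by rw [hCc]; exact C4_two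
  obtain ⟨k0, hk0⟩ : ∃ x, x = KU P r := ⟨_, rfl⟩
  have hk00 : 0 ≤ k0 := by rw [hk0]; exact KU_nonneg hP0 hr
  obtain ⟨ε, hε⟩ : ∃ ε, ε = min 1 (d2 / 4 / (β ^ 2 * k0 + 1)) := ⟨_, rfl⟩
  have hε0 : 0 < ε := by rw [hε]; positivity
  have hε1 : ε ≤ 1 := by rw [hε]; exact min_le_left _ _
  have hεd : β ^ 2 * k0 * ε ≤ d2 / 4 := le_of_le_div_add (by positivity) hε0.le (by
    rw [hε]; exact min_le_right _ _)
  obtain ⟨x, hx⟩ : ∃ x, x = min (ε ^ 2 * (τ / 2) / 400) (min (ε / 8)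
    (ε / 4 / (P * Cc ^ 2 + 1))) := ⟨_, rfl⟩
  have hx0 : 0 < x := by rw [hx]; positivity
  have hx1 : x ≤ ε ^ 2 * (τ / 2) / 400 := by rw [hx]; exact min_le_left _ _
  have hx2 : x ≤ ε / 8 := by rw [hx]; exact (min_le_right _ _).trans (min_le_left _ _)
  have hx3 : x ≤ ε / 4 / (P * Cc ^ 2 + 1) := by
    rw [hx]; exact (min_le_right _ _).trans (min_le_right _ _)
  obtain ⟨t, δ, q0, ⟨ht0, ht1⟩, ⟨hδ0, hδ1, hδx⟩, hq0, hcon⟩ := H645x.consts (C4 := Cc)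
    (CE := CE) (M := M) (B0 := β ^ 2) (y := 51 / 100) (v := 1 + κ) (ε := x) (by linarith)
    hCE.le hM0 (by positivity) (by norm_num) (by linarith) hx0
  have hδε : δ ^ 2 ≤ ε := by
    have h3 : δ ^ 2 ≤ δ := pow_le_of_le_one hδ0.le hδ1 two_ne_zero
    linarith
  have hδP : δ * (P * Cc ^ 2) ≤ ε / 4 := by
    rw [mul_comm]
    exact le_of_le_div_add (by positivity) hδ0.le (hδx.trans hx3)
  obtain ⟨q, hq⟩ : ∃ q, q = min (min q0 (1 / 2)) (min (r / (1 + κ))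
    (min (r * d2 / 4 / (β ^ 2 * ((1 + κ) * Cc ^ 2) + 1)) (d / 4 / (D0 + 1)))) := ⟨_, rfl⟩
  have hq_0 : 0 < q := by rw [hq]; positivity
  have hq_1 : q ≤ q0 := by rw [hq]; exact (min_le_left _ _).trans (min_le_left _ _)
  have hq_2 : q ≤ 1 / 2 := by rw [hq]; exact (min_le_left _ _).trans (min_le_right _ _)
  have hq_3 : (1 + κ) * q ≤ r := by
    have : q ≤ r / (1 + κ) := by
      rw [hq]; exact (min_le_right _ _).trans (min_le_left _ _)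
    rw [le_div_iff₀ (by linarith)] at this
    linarith
  have hq_4 : β ^ 2 * ((1 + κ) * Cc ^ 2) * q ≤ r * d2 / 4 :=
    le_of_le_div_add (by positivity) hq_0.le (by
      rw [hq]; exact (min_le_right _ _).trans ((min_le_right _ _).trans (min_le_left _ _)))
  have hq_5 : D0 * q ≤ d / 4 := le_of_le_div_add hD00.le hq_0.le (by
    rw [hq]; exact (min_le_right _ _).trans ((min_le_right _ _).trans (min_le_right _ _)))
  obtain ⟨εg, Kg, n3, hεg, hKg, hn3, hGc⟩ := H985.S3.gc_ev hβ0 hG (4 * S) (c1 := d / 4)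
    (by positivity)
  obtain ⟨Z, hZ⟩ : ∃ Z, Z = 5 + (320 / (β ^ 2 * (τ / 2)) + 2) * CE := ⟨_, rfl⟩
  have hZ0 : 0 < Z := by rw [hZ]; positivity
  obtain ⟨ε1, hε1d⟩ : ∃ x, x = min (min 1 (εg / 8)) (min (ε / 8 / (P + 16)) (min (ε / 48)
    (d / 4 / Z))) := ⟨_, rfl⟩
  have he0 : 0 < ε1 := by rw [hε1d]; positivity
  have he1 : ε1 ≤ 1 := by rw [hε1d]; exact (min_le_left _ _).trans (min_le_left _ _)
  have he2 : ε1 ≤ εg / 8 := by rw [hε1d]; exact (min_le_left _ _).trans (min_le_right _ _)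
  have he3 : ε1 * (P + 16) ≤ ε / 8 := by
    have : ε1 ≤ ε / 8 / (P + 16) := by
      rw [hε1d]; exact (min_le_right _ _).trans (min_le_left _ _)
    rwa [le_div_iff₀ (by linarith)] at this
  have he4 : ε1 ≤ ε / 48 := by
    rw [hε1d]; exact (min_le_right _ _).trans ((min_le_right _ _).trans (min_le_left _ _))
  have he5 : ε1 * Z ≤ d / 4 := by
    have : ε1 ≤ d / 4 / Z := by
      rw [hε1d]; exact (min_le_right _ _).trans ((min_le_right _ _).trans (min_le_right _ _))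
    rwa [le_div_iff₀ hZ0] at this
  obtain ⟨N, hN3, γ0, hγ0, u0, hu0, hcon⟩ := hcon q hq_0 hq_1 ε1 he0
  obtain ⟨γ, hγ⟩ : ∃ γ, γ = min (min γ0 (1 / (64 * Kg ^ 6))) (min (1 / (8 * β * CE + 1) ^ 8)
    (min (min (51 / 100 * D0) (1 / β ^ 2)) (4 * CE))) := ⟨_, rfl⟩
  have hγ_0 : 0 < γ := by rw [hγ]; positivity
  have hγ_1 : γ ≤ γ0 := by rw [hγ]; exact (min_le_left _ _).trans (min_le_left _ _)
  have hγ_2 : γ ≤ 1 / (64 * Kg ^ 6) := by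
    rw [hγ]; exact (min_le_left _ _).trans (min_le_right _ _)
  have hγ_3 : γ * (8 * β * CE + 1) ^ 8 ≤ 1 := by
    have : γ ≤ 1 / (8 * β * CE + 1) ^ 8 := by
      rw [hγ]; exact (min_le_right _ _).trans (min_le_left _ _)
    rwa [le_div_iff₀ (by positivity)] at this
  have hγ_4 : γ ≤ 51 / 100 * D0 := by
    rw [hγ]
    exact (min_le_right _ _).trans ((min_le_right _ _).trans ((min_le_left _ _).trans
      (min_le_left _ _)))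
  have hγ_5 : γ * β ^ 2 ≤ 1 := by
    have : γ ≤ 1 / β ^ 2 := by
      rw [hγ]
      exact (min_le_right _ _).trans ((min_le_right _ _).trans ((min_le_left _ _).trans
        (min_le_right _ _)))
    rwa [le_div_iff₀ (by positivity)] at this
  have hγ_6 : γ ≤ 4 * CE := by
    rw [hγ]
    exact (min_le_right _ _).trans ((min_le_right _ _).trans (min_le_right _ _))
  obtain ⟨n4, hUp⟩ := hUp S
  obtain ⟨Mb, hMb⟩ : ∃ x, x = 8 + 2 * S + 1 / u0 + 200 * Cc ^ 2 * β ^ 2 / ε +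
    8 * P * Cc ^ 4 / ε + 24 * β ^ 2 * S / d2 := ⟨_, rfl⟩
  obtain ⟨n5, hn5, hMb5⟩ := H437.ev_one Mb
  refine ⟨γ, hγ_0, max (max 2 (max n1 n2)) (max n3 (max n4 n5)), ?_⟩
  have Q : NumU β κ S τ C1 d2 r d1 CE CP EU P Cc D0 k0 ε x δ t q d εg Kg Z ε1 γ :=
    ⟨hβ, hκ, hκ1, hS, hτ, hτ1, hd2, hr, hrκ, hCE, hP0, hC2, hD0r, hε0, hε1, hεd, hx1, hx2,
      hδ0, hδ1, hδε, hδP, ht0, ht1, hq_0, hq_2, hq_3, hq_4, hq_5, hd0, hd_1, hd_2, hKg, hZ,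
      he0, he1, he2, he3, he4, he5, hγ_0, hγ_2, hγ_3, hγ_4, hγ_5, hγ_6⟩
  intro n hn u B hu hu1 hB hBB hbx W hW hWC
  have hnA := (le_max_left _ _).trans hn
  have hnB := (le_max_right _ _).trans hn
  have hn_2 : 2 ≤ n := (le_max_left _ _).trans hnA
  have hn_a : n1 ≤ n := (le_max_left _ _).trans ((le_max_right _ _).trans hnA)
  have hn_b : n2 ≤ n := (le_max_right _ _).trans ((le_max_right _ _).trans hnA)
  have hn_c : n3 ≤ n := (le_max_left _ _).trans hnB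
  have hn_d : n4 ≤ n := (le_max_left _ _).trans ((le_max_right _ _).trans hnB)
  have hn_e : n5 ≤ n := (le_max_right _ _).trans ((le_max_right _ _).trans hnB)
  have hn0 : 0 < n := by omega
  have hn' : (0 : ℝ) < n := by exact_mod_cast hn0
  obtain ⟨hM1, hM2⟩ := hMb5 n hn_e u hu hu1
  obtain ⟨hl1, hl2, hl3, hl4⟩ := num_u hn0 hu hKg hB hγ_2 hBB
  have hx0' : 0 < (n : ℝ) * u ^ 6 := by positivity
  have hu2 : 0 < u ^ 2 := by positivity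
  obtain ⟨y1, y2, y3, y4, y5, y6⟩ := num_M (zero_le_one.trans hS) hu0 hε0 hP0 hd2 hu hMb hM1 hM2
  obtain ⟨R, hR, hRN, -, -, hu_1, -, hCu, hsm, hconE⟩ := hcon (n : ℝ) u B hn' hu y3 hB
    (hBB.trans (mul_le_mul_of_nonneg_right hγ_1 hx0'.le))
  have hD : 0 ≤ (n : ℝ) * u ^ 5 := by positivity
  obtain ⟨-, g2, g3⟩ := hconE (CE * (B + 1) * (n * u ^ 5))
    (mul_nonneg (mul_nonneg hCE.le (by linarith)) hD) le_rfl
  have hAx := hApx n hn_a u B hl2 hu1 hB hbx (51 / 100 * u)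
    (by clear g2 g3 hsm hRN; linarith) (by clear g2 g3 hsm hRN; linarith)
  have hAy := hApx n hn_a u B hl2 hu1 hB hbx (u / 2) le_rfl (by clear g2 g3 hsm hRN; linarith)
  have hPU := hPu n hn_b u hl3 hu1
  have hAE : ApE n β κ τ u S (EU + C1) W := H437.apE_of (fun w hw =>
    hUp n hn_d κ τ u w hκ hκ1 hτ (hτ1.trans hS) hl3 hu1 (hW hw)) hWC
  have hGx := hGc n hn_c u hl1 hu1 (51 / 100 * u)
    (by clear g2 g3 hsm hRN; linarith) (by clear g2 g3 hsm hRN; linarith)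
  refine rowU_scale Q hP hk0 hCc hN3 hn_2 hu hu1 hB hBB hu_1 hl4 y1 y2 y4 y5 y6 hR hRN hCu hsm
    rfl g2 (fun κ' hκ' => ?_) hAx hAy hPU hAE hGx hW hWC
  have := g3 κ' hκ'
  rw [hM] at this
  exact this

end Vale.Agent.P146.H393.In
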